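import Vale.Agent.Lib.P195.Formal.Lin2

/-!
# P195: the Hom-conditions for `N` follow from those for the summands of `N`
-/

namespace Vale.Agent.P195.F

open CategoryTheory CategoryTheory.Abelian

universe v u

variable {R : Type u} [Ring R]

/-- `J_0 → J_1` is injective -/
def LTower.J0Inj (T : LTower.{v} R) (N : Type v) [AddCommGroup N] [Module R N] : Prop :=
  ∀ (f : T.Q3 0 →ₗ[R] N) (g : T.Q2 1 →ₗ[R] N), (∀ x, f (T.φ3 0 x) = g ((T.Q 1).i x)) →
    ∃ g' : T.Q2 0 →ₗ[R] N, ∀ x, f x = g' ((T.Q 0).i x)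

/-- exactness of `Hom(X1, N) → Hom(X2, N) → Hom(A, N)` -/
def LEx4.Hex {A X2 X1 X0 I : ModuleCat.{v} R} (E : LEx4 A X2 X1 X0 I) (N : Type v)
    [AddCommGroup N] [Module R N] : Prop :=
  ∀ f : X2 →ₗ[R] N, (∀ x, f (E.i x) = 0) → ∃ g : X1 →ₗ[R] N, ∀ x, f x = g (E.d2 x)

/-- surjectivity of `Hom(X2, N) → Hom(A, N)` -/
def LEx4.Hext {A X2 X1 X0 I : ModuleCat.{v} R} (E : LEx4 A X2 X1 X0 I) (N : Type v)
    [AddCommGroup N] [Module R N] : Prop :=
  ∀ f : A →ₗ[R] N, ∃ g : X2 →ₗ[R] N, ∀ x, f x = g (E.i x)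

section

variable {ι : Type*} [Fintype ι] {N : Type v} [AddCommGroup N] [Module R N] {K : ι → Type v}
  [∀ j, AddCommGroup (K j)] [∀ j, Module R (K j)] (p : ∀ j, N →ₗ[R] K j) (q : ∀ j, K j →ₗ[R] N)
  (hpq : ∀ x, ∑ j, q j (p j x) = x)

include hpq

/-- sum of the maps `q_j g_j` -/
theorem sum_lift {X Y : Type v} [AddCommGroup X] [Module R X] [AddCommGroup Y] [Module R Y]
    (f : X →ₗ[R] N) (d : X →ₗ[R] Y) (h : ∀ j, ∃ g : Y →ₗ[R] K j, ∀ x, p j (f x) = g (d x)) :
    ∃ g : Y →ₗ[R] N, ∀ x, f x = g (d x) := by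
  choose g hg using h
  refine ⟨∑ j, q j ∘ₗ g j, fun x => ?_⟩
  rw [LinearMap.sum_apply]
  conv_lhs => rw [← hpq (f x)]
  refine Finset.sum_congr rfl fun j _ => ?_
  rw [LinearMap.comp_apply, hg]

theorem LTower.Good.of_decomp {T : LTower.{v} R} (h : ∀ j, T.Good (K j)) : T.Good N where
  h0 := by
    intro n f hf
    apply LinearMap.ext
    intro x
    rw [← hpq (f x)]
    rw [LinearMap.zero_apply]
    apply Finset.sum_eq_zero
    intro j _
    have h1 : p j ∘ₗ f = 0 := (h j).h0 n (p j ∘ₗ f) (fun x => by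
      rw [LinearMap.comp_apply, hf x, map_zero])
    have h2 : p j (f x) = 0 := LinearMap.congr_fun h1 x
    rw [h2, map_zero]
  h1 := by
    intro n f hf
    exact sum_lift p q hpq f _ fun j => (h j).h1 n (p j ∘ₗ f) (fun x => by
      rw [LinearMap.comp_apply, hf x, map_zero])
  h2 := by
    intro n f hf
    exact sum_lift p q hpq f _ fun j => (h j).h2 n (p j ∘ₗ f) (fun x => by
      rw [LinearMap.comp_apply, hf x, map_zero])
  hJ := by
    intro n f g hfg
    have h1 : ∀ j, ∃ (k : T.Q3 n →ₗ[R] K j) (g' : T.Q2 (n + 1) →ₗ[R] K j),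
        ∀ x, p j (f x) = k (T.φ3 n x) + g' ((T.Q (n + 1)).i x) := fun j =>
      (h j).hJ n (p j ∘ₗ f) (p j ∘ₗ g) (fun x => by
        rw [LinearMap.comp_apply, LinearMap.comp_apply, hfg x])
    choose k g' hk using h1
    refine ⟨∑ j, q j ∘ₗ k j, ∑ j, q j ∘ₗ g' j, fun x => ?_⟩
    rw [LinearMap.sum_apply, LinearMap.sum_apply, ← Finset.sum_add_distrib]
    conv_lhs => rw [← hpq (f x)]
    refine Finset.sum_congr rfl fun j _ => ?_
    rw [LinearMap.comp_apply, LinearMap.comp_apply, hk, map_add]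

theorem LTower.J0Inj.of_decomp {T : LTower.{v} R} (h : ∀ j, T.J0Inj (K j)) : T.J0Inj N := by
  intro f g hfg
  exact sum_lift p q hpq f _ fun j => h j (p j ∘ₗ f) (p j ∘ₗ g) (fun x => by
    rw [LinearMap.comp_apply, LinearMap.comp_apply, hfg x])

theorem LEx4.Hex.of_decomp {A X2 X1 X0 I : ModuleCat.{v} R} {E : LEx4 A X2 X1 X0 I}
    (h : ∀ j, E.Hex (K j)) : E.Hex N := by
  intro f hf
  exact sum_lift p q hpq f _ fun j => h j (p j ∘ₗ f) (fun x => by
    rw [LinearMap.comp_apply, hf x, map_zero])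

theorem LEx4.Hext.of_decomp {A X2 X1 X0 I : ModuleCat.{v} R} {E : LEx4 A X2 X1 X0 I}
    (h : ∀ j, E.Hext (K j)) : E.Hext N := by
  intro f
  exact sum_lift p q hpq f _ fun j => h j (p j ∘ₗ f)

end

/-- a family of one module: transport along a retraction (in particular an isomorphism) -/
theorem LTower.Good.of_retract {T : LTower.{v} R} {N K : Type v} [AddCommGroup N] [Module R N]
    [AddCommGroup K] [Module R K] (p : N →ₗ[R] K) (q : K →ₗ[R] N) (hpq : ∀ x, q (p x) = x)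
    (h : T.Good K) : T.Good N :=
  LTower.Good.of_decomp (ι := Unit) (K := fun _ => K) (fun _ => p) (fun _ => q)
    (fun x => by simpa using hpq x) (fun _ => h)

theorem LTower.J0Inj.of_retract {T : LTower.{v} R} {N K : Type v} [AddCommGroup N] [Module R N]
    [AddCommGroup K] [Module R K] (p : N →ₗ[R] K) (q : K →ₗ[R] N) (hpq : ∀ x, q (p x) = x)
    (h : T.J0Inj K) : T.J0Inj N :=
  LTower.J0Inj.of_decomp (ι := Unit) (K := fun _ => K) (fun _ => p) (fun _ => q)
    (fun x => by simpa using hpq x) (fun _ => h)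

end Vale.Agent.P195.F
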