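import Vale.Agent.Lib.P195.Formal.Rel

/-!
# P195: relative acyclicity: transitivity and pull back
-/

namespace Vale.Agent.P195.F

open CategoryTheory CategoryTheory.Abelian

universe v u

variable {R : Type u} [Ring R]

namespace LTower.RelAc

section trans

variable {T : LTower.{v} R} {N'' N' N : Type v} [AddCommGroup N''] [Module R N'']
  [AddCommGroup N'] [Module R N'] [AddCommGroup N] [Module R N] {j1 : N'' →ₗ[R] N'}
  {j2 : N' →ₗ[R] N}

theorem range_comp_mem (hj : Function.Injective j2) {y : N'}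
    (h : j2 y ∈ LinearMap.range (j2 ∘ₗ j1)) : y ∈ LinearMap.range j1 := by
  obtain ⟨z, hz⟩ := h
  exact ⟨z, hj hz⟩

theorem range_comp_le {y : N} (h : y ∈ LinearMap.range (j2 ∘ₗ j1)) : y ∈ LinearMap.range j2 := by
  obtain ⟨z, hz⟩ := h
  exact ⟨j1 z, hz⟩

theorem trans (h1 : T.RelAc j1) (h2 : T.RelAc j2) : T.RelAc (j2 ∘ₗ j1) where
  inj := by
    intro x y hxy
    exact h1.inj (h2.inj hxy)
  r0 := by
    intro n f hf
    obtain ⟨f', hf'⟩ := exists_lift h2.inj f (h2.r0 n f (fun x => range_comp_le (hf x)))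
    have h3 := h1.r0 n f' (fun x => range_comp_mem h2.inj (by rw [hf']; exact hf x))
    intro x
    obtain ⟨z, hz⟩ := h3 x
    exact ⟨z, by rw [← hf', ← hz]; rfl⟩
  r1 := by
    intro n f hf
    obtain ⟨g1, hg1⟩ := h2.r1 n f (fun x => range_comp_le (hf x))
    obtain ⟨f', hf'⟩ := exists_lift h2.inj (f - g1 ∘ₗ (T.Q n).d1) hg1
    obtain ⟨g2, hg2⟩ := h1.r1 n f' (fun x => range_comp_mem h2.inj (by
      rw [hf']
      change f ((T.Q n).d2 x) - g1 ((T.Q n).d1 ((T.Q n).d2 x)) ∈ _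
      rw [(T.Q n).ex2.apply_apply_eq_zero, map_zero, sub_zero]
      exact hf x))
    refine ⟨g1 + j2 ∘ₗ g2, fun x => ?_⟩
    obtain ⟨z, hz⟩ := hg2 x
    refine ⟨z, ?_⟩
    have h3 : j2 (f' x) = f x - g1 ((T.Q n).d1 x) := hf' x
    rw [LinearMap.comp_apply, hz, map_sub, h3]
    change _ = f x - (g1 ((T.Q n).d1 x) + j2 (g2 ((T.Q n).d1 x)))
    abel
  r2 := by
    intro n f hf
    obtain ⟨g1, hg1⟩ := h2.r2 n f (fun x => range_comp_le (hf x))
    obtain ⟨f', hf'⟩ := exists_lift h2.inj (f - g1 ∘ₗ (T.Q n).d2) hg1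
    obtain ⟨g2, hg2⟩ := h1.r2 n f' (fun x => range_comp_mem h2.inj (by
      rw [hf']
      change f ((T.Q n).i x) - g1 ((T.Q n).d2 ((T.Q n).i x)) ∈ _
      rw [(T.Q n).ex3.apply_apply_eq_zero, map_zero, sub_zero]
      exact hf x))
    refine ⟨g1 + j2 ∘ₗ g2, fun x => ?_⟩
    obtain ⟨z, hz⟩ := hg2 x
    refine ⟨z, ?_⟩
    have h3 : j2 (f' x) = f x - g1 ((T.Q n).d2 x) := hf' x
    rw [LinearMap.comp_apply, hz, map_sub, h3]
    change _ = f x - (g1 ((T.Q n).d2 x) + j2 (g2 ((T.Q n).d2 x)))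
    abel
  r3 := by
    intro n f
    obtain ⟨g1, hg1⟩ := h2.r3 n f
    obtain ⟨f', hf'⟩ := exists_lift h2.inj (f - g1 ∘ₗ (T.Q n).i) hg1
    obtain ⟨g2, hg2⟩ := h1.r3 n f'
    refine ⟨g1 + j2 ∘ₗ g2, fun x => ?_⟩
    obtain ⟨z, hz⟩ := hg2 x
    refine ⟨z, ?_⟩
    have h3 : j2 (f' x) = f x - g1 ((T.Q n).i x) := hf' x
    rw [LinearMap.comp_apply, hz, map_sub, h3]
    change _ = f x - (g1 ((T.Q n).i x) + j2 (g2 ((T.Q n).i x)))
    abel

end trans

section pull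

variable {T : LTower.{v} R} {N' N M' M : Type v} [AddCommGroup N'] [Module R N']
  [AddCommGroup N] [Module R N] [AddCommGroup M'] [Module R M'] [AddCommGroup M] [Module R M]
  {jN : N' →ₗ[R] N} {jM : M' →ₗ[R] M}

/-- maps from a projective module lift along `N → M / M'` -/
theorem lift_mod {Q : Type v} [AddCommGroup Q] [Module R Q] (hQ : Module.Projective R Q)
    (q : N →ₗ[R] M) (hs : ∀ y : M, ∃ x : N, y - q x ∈ LinearMap.range jM) (f : Q →ₗ[R] M) :
    ∃ g : Q →ₗ[R] N, ∀ x, f x - q (g x) ∈ LinearMap.range jM := by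
  have hsurj : Function.Surjective (q.coprod jM) := by
    intro y
    obtain ⟨x, z, hz⟩ := hs y
    refine ⟨(x, z), ?_⟩
    rw [LinearMap.coprod_apply, hz]
    change q x + (y - q x) = y
    abel
  obtain ⟨g, hg⟩ := Module.projective_lifting_property (q.coprod jM) f hsurj
  refine ⟨LinearMap.fst R N M' ∘ₗ g, fun x => ⟨(g x).2, ?_⟩⟩
  have h1 := LinearMap.congr_fun hg x
  rw [LinearMap.comp_apply, LinearMap.coprod_apply] at h1
  change jM (g x).2 = f x - q (g x).1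
  rw [← h1]
  abel

/-- pull back of relative acyclicity along `q : N → M` with `N' = q⁻¹ M'`, `M = q N + M'` -/
theorem pull (hM : T.RelAc jM) (q : N →ₗ[R] M) (hinj : Function.Injective jN)
    (hr : ∀ x, x ∈ LinearMap.range jN ↔ q x ∈ LinearMap.range jM)
    (hs : ∀ y : M, ∃ x : N, y - q x ∈ LinearMap.range jM) : T.RelAc jN where
  inj := hinj
  r0 := by
    intro n f hf x
    rw [hr]
    exact hM.r0 n (q ∘ₗ f) (fun x => (hr _).1 (hf x)) x
  r1 := by
    intro n f hf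
    obtain ⟨g, hg⟩ := hM.r1 n (q ∘ₗ f) (fun x => (hr _).1 (hf x))
    obtain ⟨g', hg'⟩ := lift_mod (T.proj0 n) q hs g
    refine ⟨g', fun x => ?_⟩
    rw [hr, map_sub]
    have h1 := Submodule.add_mem _ (hg x) (hg' ((T.Q n).d1 x))
    rwa [LinearMap.comp_apply, sub_add_sub_cancel] at h1
  r2 := by
    intro n f hf
    obtain ⟨g, hg⟩ := hM.r2 n (q ∘ₗ f) (fun x => (hr _).1 (hf x))
    obtain ⟨g', hg'⟩ := lift_mod (T.proj1 n) q hs g
    refine ⟨g', fun x => ?_⟩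
    rw [hr, map_sub]
    have h1 := Submodule.add_mem _ (hg x) (hg' ((T.Q n).d2 x))
    rwa [LinearMap.comp_apply, sub_add_sub_cancel] at h1
  r3 := by
    intro n f
    obtain ⟨g, hg⟩ := hM.r3 n (q ∘ₗ f)
    obtain ⟨g', hg'⟩ := lift_mod (T.proj2 n) q hs g
    refine ⟨g', fun x => ?_⟩
    rw [hr, map_sub]
    have h1 := Submodule.add_mem _ (hg x) (hg' ((T.Q n).i x))
    rwa [LinearMap.comp_apply, sub_add_sub_cancel] at h1

end pull

end LTower.RelAc

end Vale.Agent.P195.F
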