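import Vale.Agent.Lib.P195.Formal.Prod

/-!
# P195: relative acyclicity

`j : N' → N` injective; if the quotient complexes `Hom(Q n, N) / Hom(Q n, N')` are exact in all four
places then the conditions `Good` and `J0Inj` for `N` and `N'` are equivalent.
-/

namespace Vale.Agent.P195.F

open CategoryTheory CategoryTheory.Abelian

universe v u

variable {R : Type u} [Ring R]

/-- the quotient complexes `Hom(Q n, N) / Hom(Q n, N')` are exact -/
structure LTower.RelAc (T : LTower.{v} R) {N' N : Type v} [AddCommGroup N'] [Module R N']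
    [AddCommGroup N] [Module R N] (j : N' →ₗ[R] N) : Prop where
  inj : Function.Injective j
  r0 : ∀ n, ∀ f : T.Q0 n →ₗ[R] N, (∀ x, f ((T.Q n).d1 x) ∈ LinearMap.range j) →
    ∀ x, f x ∈ LinearMap.range j
  r1 : ∀ n, ∀ f : T.Q1 n →ₗ[R] N, (∀ x, f ((T.Q n).d2 x) ∈ LinearMap.range j) →
    ∃ g : T.Q0 n →ₗ[R] N, ∀ x, f x - g ((T.Q n).d1 x) ∈ LinearMap.range j
  r2 : ∀ n, ∀ f : T.Q2 n →ₗ[R] N, (∀ x, f ((T.Q n).i x) ∈ LinearMap.range j) →
    ∃ g : T.Q1 n →ₗ[R] N, ∀ x, f x - g ((T.Q n).d2 x) ∈ LinearMap.range j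
  r3 : ∀ n, ∀ f : T.Q3 n →ₗ[R] N,
    ∃ g : T.Q2 n →ₗ[R] N, ∀ x, f x - g ((T.Q n).i x) ∈ LinearMap.range j

/-- a map with values in the range of an injective map lifts -/
theorem exists_lift {X N' N : Type v} [AddCommGroup X] [Module R X] [AddCommGroup N'] [Module R N']
    [AddCommGroup N] [Module R N] {j : N' →ₗ[R] N} (hj : Function.Injective j) (f : X →ₗ[R] N)
    (h : ∀ x, f x ∈ LinearMap.range j) : ∃ f' : X →ₗ[R] N', ∀ x, j (f' x) = f x := by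
  refine ⟨(LinearEquiv.ofInjective j hj).symm.toLinearMap ∘ₗ f.codRestrict (LinearMap.range j) h,
    fun x => ?_⟩
  have h1 := LinearEquiv.ofInjective_apply (h := hj) j
    ((LinearEquiv.ofInjective j hj).symm ⟨f x, h x⟩)
  rw [LinearEquiv.apply_symm_apply] at h1
  exact h1.symm

namespace LTower.RelAc

variable {T : LTower.{v} R} {N' N : Type v} [AddCommGroup N'] [Module R N']
  [AddCommGroup N] [Module R N] {j : N' →ₗ[R] N} (h : T.RelAc j)

include h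

theorem good_of_sub (hN : T.Good N') : T.Good N where
  h0 := by
    intro n f hf
    have h1 := h.r0 n f (fun x => by rw [hf x]; exact Submodule.zero_mem _)
    obtain ⟨f', hf'⟩ := exists_lift h.inj f h1
    have h2 : f' = 0 := hN.h0 n f' (fun x => h.inj (by rw [hf', hf, map_zero]))
    apply LinearMap.ext
    intro x
    rw [← hf', h2, LinearMap.zero_apply, map_zero, LinearMap.zero_apply]
  h1 := by
    intro n f hf
    obtain ⟨g, hg⟩ := h.r1 n f (fun x => by rw [hf x]; exact Submodule.zero_mem _)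
    obtain ⟨f', hf'⟩ := exists_lift h.inj (f - g ∘ₗ (T.Q n).d1) hg
    obtain ⟨g', hg'⟩ := hN.h1 n f' (fun x => h.inj (by
      rw [hf', map_zero]
      change f ((T.Q n).d2 x) - g ((T.Q n).d1 ((T.Q n).d2 x)) = 0
      rw [hf, (T.Q n).ex2.apply_apply_eq_zero, map_zero, sub_zero]))
    refine ⟨g + j ∘ₗ g', fun x => ?_⟩
    have h2 : j (f' x) = f x - g ((T.Q n).d1 x) := hf' x
    rw [hg'] at h2
    rw [LinearMap.add_apply, LinearMap.comp_apply, h2, add_sub_cancel]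
  h2 := by
    intro n f hf
    obtain ⟨g, hg⟩ := h.r2 n f (fun x => by rw [hf x]; exact Submodule.zero_mem _)
    obtain ⟨f', hf'⟩ := exists_lift h.inj (f - g ∘ₗ (T.Q n).d2) hg
    obtain ⟨g', hg'⟩ := hN.h2 n f' (fun x => h.inj (by
      rw [hf', map_zero]
      change f ((T.Q n).i x) - g ((T.Q n).d2 ((T.Q n).i x)) = 0
      rw [hf, (T.Q n).ex3.apply_apply_eq_zero, map_zero, sub_zero]))
    refine ⟨g + j ∘ₗ g', fun x => ?_⟩
    have h2 : j (f' x) = f x - g ((T.Q n).d2 x) := hf' x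
    rw [hg'] at h2
    rw [LinearMap.add_apply, LinearMap.comp_apply, h2, add_sub_cancel]
  hJ := by
    intro n f g hfg
    obtain ⟨a, ha⟩ := h.r3 (n + 1) f
    obtain ⟨f', hf'⟩ := exists_lift h.inj (f - a ∘ₗ (T.Q (n + 1)).i) ha
    have hf'' : ∀ x, j (f' x) = f x - a ((T.Q (n + 1)).i x) := hf'
    have hb : ∀ x, (g - a ∘ₗ (T.φ (n + 1)).x2) ((T.Q (n + 2)).i x) = j (f' (T.φ3 (n + 1) x)) := by
      intro x
      rw [hf'', hfg, ← (T.φ (n + 1)).ci x]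
      rfl
    obtain ⟨c, hc⟩ := h.r2 (n + 2) (g - a ∘ₗ (T.φ (n + 1)).x2) (fun x => ⟨_, (hb x).symm⟩)
    obtain ⟨b', hb'⟩ := exists_lift h.inj
      (g - a ∘ₗ (T.φ (n + 1)).x2 - c ∘ₗ (T.Q (n + 2)).d2) hc
    obtain ⟨k, g', hk⟩ := hN.hJ n f' b' (fun x => h.inj (by
      rw [hb', ← hb]
      change _ = _ - c ((T.Q (n + 2)).d2 ((T.Q (n + 2)).i x))
      rw [(T.Q (n + 2)).ex3.apply_apply_eq_zero, map_zero, sub_zero]))
    refine ⟨j ∘ₗ k, j ∘ₗ g' + a, fun x => ?_⟩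
    have h2 := hf'' x
    rw [hk, map_add] at h2
    rw [LinearMap.comp_apply, LinearMap.add_apply, LinearMap.comp_apply, ← add_assoc, h2,
      sub_add_cancel]

theorem good_sub (hN : T.Good N) : T.Good N' where
  h0 := by
    intro n f hf
    have h1 : j ∘ₗ f = 0 := hN.h0 n (j ∘ₗ f) (fun x => by rw [LinearMap.comp_apply, hf, map_zero])
    apply LinearMap.ext
    intro x
    apply h.inj
    rw [LinearMap.zero_apply, map_zero]
    exact LinearMap.congr_fun h1 x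
  h1 := by
    intro n f hf
    obtain ⟨g, hg⟩ := hN.h1 n (j ∘ₗ f) (fun x => by rw [LinearMap.comp_apply, hf, map_zero])
    have h1 := h.r0 n g (fun x => ⟨f x, hg x⟩)
    obtain ⟨g', hg'⟩ := exists_lift h.inj g h1
    refine ⟨g', fun x => h.inj ?_⟩
    rw [hg', ← hg]
    rfl
  h2 := by
    intro n f hf
    obtain ⟨g, hg⟩ := hN.h2 n (j ∘ₗ f) (fun x => by rw [LinearMap.comp_apply, hf, map_zero])
    obtain ⟨a, ha⟩ := h.r1 n g (fun x => ⟨f x, hg x⟩)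
    obtain ⟨g', hg'⟩ := exists_lift h.inj (g - a ∘ₗ (T.Q n).d1) ha
    refine ⟨g', fun x => h.inj ?_⟩
    rw [hg']
    change j (f x) = g ((T.Q n).d2 x) - a ((T.Q n).d1 ((T.Q n).d2 x))
    rw [(T.Q n).ex2.apply_apply_eq_zero, map_zero, sub_zero]
    exact hg x
  hJ := by
    intro n f g hfg
    obtain ⟨k, g1, hk⟩ := hN.hJ n (j ∘ₗ f) (j ∘ₗ g) (fun x => by
      rw [LinearMap.comp_apply, LinearMap.comp_apply, hfg])
    obtain ⟨a, ha⟩ := h.r3 n k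
    obtain ⟨k', hk'⟩ := exists_lift h.inj (k - a ∘ₗ (T.Q n).i) ha
    have hk'' : ∀ x, j (k' x) = k x - a ((T.Q n).i x) := hk'
    have hb : ∀ x, (a ∘ₗ (T.φ n).x2 + g1) ((T.Q (n + 1)).i x) = j (f x - k' (T.φ3 n x)) := by
      intro x
      rw [map_sub, hk'', ← (T.φ n).ci x]
      have h1 := hk x
      rw [LinearMap.comp_apply] at h1
      rw [h1]
      change a ((T.φ n).x2 ((T.Q (n + 1)).i x)) + g1 ((T.Q (n + 1)).i x) = _
      abel
    obtain ⟨c, hc⟩ := h.r2 (n + 1) (a ∘ₗ (T.φ n).x2 + g1) (fun x => ⟨_, (hb x).symm⟩)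
    obtain ⟨b', hb'⟩ := exists_lift h.inj
      (a ∘ₗ (T.φ n).x2 + g1 - c ∘ₗ (T.Q (n + 1)).d2) hc
    refine ⟨k', b', fun x => h.inj ?_⟩
    rw [map_add, hb']
    change j (f x) = j (k' (T.φ3 n x)) + ((a ∘ₗ (T.φ n).x2 + g1) ((T.Q (n + 1)).i x) -
      c ((T.Q (n + 1)).d2 ((T.Q (n + 1)).i x)))
    rw [(T.Q (n + 1)).ex3.apply_apply_eq_zero, map_zero, sub_zero, hb, map_sub]
    abel

theorem j0inj_of_sub (hN : T.J0Inj N') : T.J0Inj N := by
  intro f g hfg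
  obtain ⟨a, ha⟩ := h.r3 0 f
  obtain ⟨f', hf'⟩ := exists_lift h.inj (f - a ∘ₗ (T.Q 0).i) ha
  have hf'' : ∀ x, j (f' x) = f x - a ((T.Q 0).i x) := hf'
  have hb : ∀ x, (g - a ∘ₗ (T.φ 0).x2) ((T.Q 1).i x) = j (f' (T.φ3 0 x)) := by
    intro x
    rw [hf'', hfg, ← (T.φ 0).ci x]
    rfl
  obtain ⟨c, hc⟩ := h.r2 1 (g - a ∘ₗ (T.φ 0).x2) (fun x => ⟨_, (hb x).symm⟩)
  obtain ⟨b', hb'⟩ := exists_lift h.inj (g - a ∘ₗ (T.φ 0).x2 - c ∘ₗ (T.Q 1).d2) hc
  obtain ⟨g', hk⟩ := hN f' b' (fun x => h.inj (by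
    rw [hb', ← hb]
    change _ = _ - c ((T.Q 1).d2 ((T.Q 1).i x))
    rw [(T.Q 1).ex3.apply_apply_eq_zero, map_zero, sub_zero]))
  refine ⟨j ∘ₗ g' + a, fun x => ?_⟩
  have h2 := hf'' x
  rw [hk] at h2
  rw [LinearMap.add_apply, LinearMap.comp_apply, h2, sub_add_cancel]

theorem j0inj_sub (hN : T.J0Inj N) : T.J0Inj N' := by
  intro f g hfg
  obtain ⟨g1, hg1⟩ := hN (j ∘ₗ f) (j ∘ₗ g) (fun x => by
    rw [LinearMap.comp_apply, LinearMap.comp_apply, hfg])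
  obtain ⟨c, hc⟩ := h.r2 0 g1 (fun x => ⟨f x, hg1 x⟩)
  obtain ⟨b', hb'⟩ := exists_lift h.inj (g1 - c ∘ₗ (T.Q 0).d2) hc
  refine ⟨b', fun x => h.inj ?_⟩
  rw [hb']
  change j (f x) = g1 ((T.Q 0).i x) - c ((T.Q 0).d2 ((T.Q 0).i x))
  rw [(T.Q 0).ex3.apply_apply_eq_zero, map_zero, sub_zero]
  exact hg1 x

theorem good_iff : T.Good N' ↔ T.Good N := ⟨h.good_of_sub, h.good_sub⟩

theorem j0inj_iff : T.J0Inj N' ↔ T.J0Inj N := ⟨h.j0inj_of_sub, h.j0inj_sub⟩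

end LTower.RelAc

end Vale.Agent.P195.F
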