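import Vale.Agent.Lib.P195.Formal.Tower

/-!
# P195: `Ext^i(M, M) = 0` from `Ext^i(Y_0, P) = 0` (`P` the projectives of the periodic sequence) and
`Ext^i(Y_0, Y_0)`
-/

namespace Vale.Agent.P195.F

open CategoryTheory CategoryTheory.Abelian CategoryTheory.Limits

universe w v u

variable {C : Type u} [Category.{v} C] [Abelian C]

section

variable [HasExt.{w} C] {L X Y T N : C} {f : X ⟶ Y} {g : Y ⟶ T} {w : f ≫ g = 0}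
  (hS : (ShortComplex.mk f g w).ShortExact)

theorem co1 {n : ℕ} (x : Ext.{w} L X (n + 1)) (h : x.comp (Ext.mk₀ f) (add_zero (n + 1)) = 0) :
    ∃ y : Ext.{w} L T n, y.comp (cl hS) rfl = x :=
  Ext.covariant_sequence_exact₁ L hS x h rfl

include hS in
theorem co2 {n : ℕ} (x : Ext.{w} L Y n) (h : x.comp (Ext.mk₀ g) (add_zero n) = 0) :
    ∃ y : Ext.{w} L X n, y.comp (Ext.mk₀ f) (add_zero n) = x :=
  Ext.covariant_sequence_exact₂ L hS x h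

theorem co3 {n : ℕ} (x : Ext.{w} L T n) (h : x.comp (cl hS) rfl = 0) :
    ∃ y : Ext.{w} L Y n, y.comp (Ext.mk₀ g) (add_zero n) = x :=
  Ext.covariant_sequence_exact₃ L hS x rfl h

theorem co_g_cl {n : ℕ} (x : Ext.{w} L Y n) :
    (x.comp (Ext.mk₀ g) (add_zero n)).comp (cl hS) rfl = 0 := by
  rw [Ext.comp_assoc_of_second_deg_zero]
  have h : (Ext.mk₀ g).comp (cl hS) (zero_add 1) = 0 := hS.comp_extClass
  rw [h, Ext.comp_zero]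

omit hS in
theorem co_f_g (_ : (ShortComplex.mk f g w).ShortExact) {n : ℕ} (x : Ext.{w} L X n) :
    (x.comp (Ext.mk₀ f) (add_zero n)).comp (Ext.mk₀ g) (add_zero n) = 0 := by
  rw [Ext.comp_assoc_of_third_deg_zero, Ext.mk₀_comp_mk₀, w, Ext.mk₀_zero, Ext.comp_zero]

theorem Z.zero_of_mono {L X Y : C} (i : X ⟶ Y) [Mono i] (h : Z.{w} L Y 0) : Z.{w} L X 0 := by
  rw [z_zero_iff] at h ⊢
  intro f
  rw [← cancel_mono i, zero_comp]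
  exact h _

theorem Z.iso_right {L X Y : C} {n : ℕ} (a : X ≅ Y) (h : Z.{w} L Y n) : Z.{w} L X n := by
  intro x
  have h1 := h (x.comp (Ext.mk₀ a.hom) (add_zero n))
  have h2 : (x.comp (Ext.mk₀ a.hom) (add_zero n)).comp (Ext.mk₀ a.inv) (add_zero n) = x := by
    rw [Ext.comp_assoc_of_third_deg_zero, Ext.mk₀_comp_mk₀, a.hom_inv_id, Ext.comp_mk₀_id]
  rw [← h2, h1, Ext.zero_comp]

end

namespace Ex4

variable {A I : C} (E : Ex4 A I) [HasExt.{w} C] {N L : C}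

/-- iterated connecting map in the second variable, `Ext^n(L, ker p) → Ext^(n+2)(L, A)` -/
noncomputable def co23 {n : ℕ} (x : Ext.{w} L (kernel E.p) n) : Ext.{w} L A (n + 2) :=
  (x.comp (cl E.S2e) rfl).comp (cl E.S3e) rfl

/-- the class of the sequence -/
noncomputable def kap : Ext.{w} I A 3 := E.th3 (Ext.mk₀ (𝟙 A))

theorem co23_zero {n : ℕ} : E.co23 (0 : Ext.{w} L (kernel E.p) n) = 0 := by
  unfold co23
  rw [Ext.zero_comp, Ext.zero_comp]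

theorem th3_comp_mk₀ {n : ℕ} (x : Ext.{w} A N n) {N' : C} (h : N ⟶ N') :
    (E.th3 x).comp (Ext.mk₀ h) (add_zero (n + 3)) = E.th3 (x.comp (Ext.mk₀ h) (add_zero n)) := by
  unfold th3 th2
  rw [Ext.comp_assoc_of_third_deg_zero, Ext.comp_assoc_of_third_deg_zero,
    Ext.comp_assoc_of_third_deg_zero]

theorem kap_comp_mk₀ (h : A ⟶ N) :
    E.kap.comp (Ext.mk₀ h) (add_zero 3) = E.th3 (Ext.mk₀ h : Ext.{w} A N 0) := by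
  have h1 := E.th3_comp_mk₀ (Ext.mk₀ (𝟙 A) : Ext.{w} A A 0) h
  rw [Ext.mk₀_id_comp] at h1
  exact h1

theorem co23_comp_cl (g : L ⟶ I) :
    E.co23 ((Ext.mk₀ g).comp (cl E.S1e) (zero_add 1)) =
      (Ext.mk₀ g).comp (E.kap : Ext.{w} I A 3) (zero_add 3) := by
  unfold co23 kap th3 th2
  rw [Ext.comp_mk₀_id]
  rw [Ext.comp_assoc (a₁₂ := 1) (a₂₃ := 2) (Ext.mk₀ g) (cl E.S1e) (cl E.S2e) (zero_add 1) rfl rfl]
  rw [Ext.comp_assoc (a₁₂ := 2) (a₂₃ := 3) (Ext.mk₀ g) _ (cl E.S3e) (zero_add 2) rfl rfl]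
  congr 1
  exact Ext.comp_assoc (a₁₂ := 2) (a₂₃ := 2) (cl E.S1e) (cl E.S2e) (cl E.S3e) rfl rfl rfl

/-- `Ext^n(L, ker p) → Ext^(n+2)(L, A)` is onto if `Ext(L, X1) = Ext(L, X2) = 0` -/
theorem co23_surj (h2 : ∀ i, Z.{w} L E.X2 i) (h1 : ∀ i, Z.{w} L E.X1 i) {n : ℕ}
    (x : Ext.{w} L A (n + 2)) : ∃ y : Ext.{w} L (kernel E.p) n, E.co23 y = x := by
  obtain ⟨y, hy⟩ := co1 E.S3e (n := n + 1) x (h2 _ _)
  obtain ⟨z, hz⟩ := co1 E.S2e (n := n) y (h1 _ _)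
  refine ⟨z, ?_⟩
  unfold co23
  rw [hz, hy]

end Ex4

/-- The groups `Ext^i(Y_0, M)`. -/
theorem ext_Y_M [HasExt.{w} C] {M Y0 : C} (E : Ex4 M Y0) (a : E.X0 ≅ M)
    (hP2 : ∀ i, Z.{w} Y0 E.X2 i) (hP1 : ∀ i, Z.{w} Y0 E.X1 i)
    (hd1 : Z.{w} Y0 Y0 1) (hd2 : Z.{w} Y0 Y0 2) (hd4 : ∀ i, Z.{w} Y0 Y0 (i + 4))
    (hinj : ∀ g : Y0 ⟶ Y0,
      ((Ext.mk₀ g).comp (E.kap : Ext.{w} Y0 M 3) (zero_add 3)).comp (Ext.mk₀ (a.inv ≫ E.p))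
        (add_zero 3) = 0 → (Ext.mk₀ g).comp (E.kap : Ext.{w} Y0 M 3) (zero_add 3) = 0)
    (hsurj : ∀ z : Ext.{w} Y0 Y0 3, ∃ v : Ext.{w} Y0 M 3,
      v.comp (Ext.mk₀ (a.inv ≫ E.p)) (add_zero 3) = z) :
    (∀ i, i ≠ 3 → Z.{w} Y0 M i) ∧ ∀ x : Ext.{w} Y0 M 3, ∃ g : Y0 ⟶ Y0,
      x = (Ext.mk₀ g).comp (E.kap : Ext.{w} Y0 M 3) (zero_add 3) := by
  have hi : Mono E.i := E.mono_i
  have v0 : Z.{w} Y0 M 0 := Z.zero_of_mono E.i (hP2 0)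
  have k0 : Z.{w} Y0 (kernel E.d1) 0 := Z.zero_of_mono (kernel.ι E.d1) (hP1 0)
  have v1 : Z.{w} Y0 M 1 := by
    intro x
    obtain ⟨y, rfl⟩ := co1 E.S3e (n := 0) x (hP2 _ _)
    rw [k0 y, Ext.zero_comp]
  have v2 : Z.{w} Y0 M 2 := by
    intro x
    obtain ⟨y, rfl⟩ := E.co23_surj hP2 hP1 (n := 0) x
    have h1 : Z.{w} Y0 (kernel E.p) 0 := Z.zero_of_mono (kernel.ι E.p) (Z.iso_right a v0)
    rw [h1 y, E.co23_zero]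
  have v3 : ∀ x : Ext.{w} Y0 M 3, ∃ g : Y0 ⟶ Y0,
      x = (Ext.mk₀ g).comp (E.kap : Ext.{w} Y0 M 3) (zero_add 3) := by
    intro x
    obtain ⟨y, rfl⟩ := E.co23_surj hP2 hP1 (n := 1) x
    obtain ⟨z, rfl⟩ := co1 E.S1e (n := 0) y (Z.iso_right a v1 _)
    obtain ⟨g, rfl⟩ := exists_mk₀ z
    exact ⟨g, E.co23_comp_cl g⟩
  have v4 : Z.{w} Y0 M 4 := by
    intro x
    obtain ⟨y, rfl⟩ := E.co23_surj hP2 hP1 (n := 2) x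
    obtain ⟨z, rfl⟩ := co1 E.S1e (n := 1) y (Z.iso_right a v2 _)
    rw [hd1 z, Ext.zero_comp, E.co23_zero]
  have v5 : Z.{w} Y0 M 5 := by
    intro x
    obtain ⟨y, rfl⟩ := E.co23_surj hP2 hP1 (n := 3) x
    -- `v = y · ι · a.hom ∈ Ext^3(Y0, M)`
    obtain ⟨g, hg⟩ := v3 ((y.comp (Ext.mk₀ (kernel.ι E.p)) (add_zero 3)).comp (Ext.mk₀ a.hom)
      (add_zero 3))
    have h1 : ((y.comp (Ext.mk₀ (kernel.ι E.p)) (add_zero 3)).comp (Ext.mk₀ a.hom)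
      (add_zero 3)).comp (Ext.mk₀ a.inv) (add_zero 3) =
        y.comp (Ext.mk₀ (kernel.ι E.p)) (add_zero 3) := by
      rw [Ext.comp_assoc_of_third_deg_zero _ (Ext.mk₀ a.hom) (Ext.mk₀ a.inv), Ext.mk₀_comp_mk₀,
        a.hom_inv_id, Ext.comp_mk₀_id]
    have h2 : ((Ext.mk₀ g).comp (E.kap : Ext.{w} Y0 M 3) (zero_add 3)).comp
        (Ext.mk₀ (a.inv ≫ E.p)) (add_zero 3) = 0 := by
      rw [← hg, ← Ext.mk₀_comp_mk₀, ← Ext.comp_assoc_of_third_deg_zero, h1]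
      exact co_f_g E.S1e y
    have h3 : y.comp (Ext.mk₀ (kernel.ι E.p)) (add_zero 3) = 0 := by
      rw [← h1, hg, hinj g h2, Ext.zero_comp]
    obtain ⟨z, rfl⟩ := co1 E.S1e (n := 2) y h3
    rw [hd2 z, Ext.zero_comp, E.co23_zero]
  have v6 : Z.{w} Y0 M 6 := by
    intro x
    obtain ⟨y, rfl⟩ := E.co23_surj hP2 hP1 (n := 4) x
    obtain ⟨z, rfl⟩ := co1 E.S1e (n := 3) y (Z.iso_right a v4 _)
    obtain ⟨v, rfl⟩ := hsurj z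
    have h1 : (v.comp (Ext.mk₀ (a.inv ≫ E.p)) (add_zero 3)).comp (cl E.S1e) rfl = 0 := by
      rw [← Ext.mk₀_comp_mk₀, ← Ext.comp_assoc_of_third_deg_zero]
      exact co_g_cl E.S1e _
    rw [h1, E.co23_zero]
  have step : ∀ i, Z.{w} Y0 M (i + 5) → Z.{w} Y0 M (i + 7) := by
    intro i hi x
    obtain ⟨y, rfl⟩ := E.co23_surj hP2 hP1 (n := i + 5) x
    obtain ⟨z, rfl⟩ := co1 E.S1e (n := i + 4) y (Z.iso_right a hi _)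
    rw [hd4 i z, Ext.zero_comp, E.co23_zero]
  have all : ∀ i, Z.{w} Y0 M (i + 4) ∧ Z.{w} Y0 M (i + 5) ∧ Z.{w} Y0 M (i + 6) := by
    intro i
    induction i with
    | zero => exact ⟨v4, v5, v6⟩
    | succ i ih => exact ⟨ih.2.1, ih.2.2, step i ih.2.1⟩
  refine ⟨fun i hi => ?_, v3⟩
  rcases Nat.lt_or_ge i 4 with h4 | h4
  · interval_cases i
    · exact v0
    · exact v1
    · exact v2
    · exact absurd rfl hi
  · obtain ⟨j, rfl⟩ := Nat.exists_eq_add_of_le' h4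
    exact (all j).1

/-- the conditions on `Y_0` as second argument: orthogonality of `Y_n` and `Y_0` for `n ≥ 1` -/
structure Tower.Orth (T : Tower C) : Prop where
  x0 : ∀ n, ∀ f : (T.Q (n + 1)).X0 ⟶ T.Y 0, (T.Q (n + 1)).d1 ≫ f = 0 → f = 0
  x1 : ∀ n, ∀ f : (T.Q n).X1 ⟶ T.Y 0, (T.Q n).d2 ≫ f = 0 →
    ∃ g : (T.Q n).X0 ⟶ T.Y 0, f = (T.Q n).d1 ≫ g
  x2 : ∀ n, ∀ f : (T.Q n).X2 ⟶ T.Y 0, (T.Q n).i ≫ f = 0 →
    ∃ g : (T.Q n).X1 ⟶ T.Y 0, f = (T.Q n).d2 ≫ g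
  x3 : ∀ n, ∀ f : T.Q3 (n + 1) ⟶ T.Y 0, ∃ g : (T.Q (n + 1)).X2 ⟶ T.Y 0,
    f = (T.Q (n + 1)).i ≫ g

namespace Tower

variable (T : Tower C) [HasExt.{w} C]

theorem orthI (h : T.Orth) (n i : ℕ) : Z.{w} (T.I (n + 1)) (T.Y 0) i := by
  have p0 := T.proj0 (n + 1)
  have p1 := T.proj1 (n + 1)
  rcases Nat.lt_or_ge i 4 with h4 | h4
  · interval_cases i
    · exact (T.Q (n + 1)).z0 (h.x0 n)
    · exact (T.Q (n + 1)).z1 (Z.of_projective 0) (h.x1 (n + 1))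
    · exact (T.Q (n + 1)).z2 (Z.of_projective 1) (Z.of_projective 0) (h.x2 (n + 1))
    · intro x
      obtain ⟨f, rfl⟩ := T.I3_surj (n + 1) x
      obtain ⟨g, rfl⟩ := h.x3 n f
      exact (T.Q (n + 1)).th3_mk₀_i
  · obtain ⟨j, rfl⟩ := Nat.exists_eq_add_of_le' h4
    exact T.I4 (n + 1) j

theorem orthY (h : T.Orth) (i : ℕ) : ∀ n, Z.{w} (T.Y (n + 1)) (T.Y 0) i := by
  induction i with
  | zero =>
    intro n
    have he : Epi (T.π (n + 1)) := (T.ses (n + 1)).epi_g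
    rw [z_zero_iff]
    intro f
    rw [← cancel_epi (T.π (n + 1)), comp_zero]
    exact z_zero_iff.1 (T.orthI h n 0) _
  | succ i ih =>
    intro n
    exact Z.of_ses (T.ses (n + 1)) (n := i) (ih (n + 1)) (T.orthI h n (i + 1))

theorem y0_of_i0 (h : T.Orth) (i : ℕ) {x : Ext.{w} (T.Y 0) (T.Y 0) (i + 1)}
    (hx : (Ext.mk₀ (T.π 0)).comp x (zero_add (i + 1)) = 0) : x = 0 :=
  inj_of_ses (T.ses 0) (n := i) (T.orthY h i 0) hx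

theorem ext_Y0_1 (h : T.Orth) : Z.{w} (T.Y 0) (T.Y 0) 1 := by
  have p0 := T.proj0 0
  intro x
  exact T.y0_of_i0 h 0 ((T.Q 0).z1 (Z.of_projective 0) (h.x1 0) _)

theorem ext_Y0_2 (h : T.Orth) : Z.{w} (T.Y 0) (T.Y 0) 2 := by
  have p0 := T.proj0 0
  have p1 := T.proj1 0
  intro x
  exact T.y0_of_i0 h 1 ((T.Q 0).z2 (Z.of_projective 1) (Z.of_projective 0) (h.x2 0) _)

theorem ext_Y0_4 (h : T.Orth) (i : ℕ) : Z.{w} (T.Y 0) (T.Y 0) (i + 4) := by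
  intro x
  exact T.y0_of_i0 h (i + 3) (T.I4 0 i _)

/-- **Second formal theorem**: `Ext^i(M, M) = 0`. -/
theorem main2 {M : C} (h : T.Orth) (E : Ex4 M (T.Y 0)) (a : E.X0 ≅ M) [Projective E.X2]
    [Projective E.X1] (ψ3 : T.Q3 0 ⟶ M) (ψ : Hom4 (T.Q 0) E ψ3 (T.π 0))
    (hP2 : ∀ i, Z.{w} (T.Y 0) E.X2 i) (hP1 : ∀ i, Z.{w} (T.Y 0) E.X1 i)
    (hex : ∀ f : E.X2 ⟶ M, E.i ≫ f = 0 → ∃ g : E.X1 ⟶ M, f = E.d2 ≫ g)
    (hM : ∀ f : M ⟶ M, f = 0 ∨ IsIso f)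
    (hY : ∀ g : T.Y 0 ⟶ T.Y 0, g = 0 ∨ IsIso g)
    (hE : ∀ g : T.Y 0 ⟶ T.Y 0, ∃ k : M ⟶ M, Nonempty (Hom4 E E k g))
    (nd1 : ∀ g : (T.Q 0).X2 ⟶ T.Y 0, ψ3 ≫ a.inv ≫ E.p ≠ (T.Q 0).i ≫ g)
    (nd2 : ∀ f : T.Q3 0 ⟶ T.Y 0, ∃ (k : M ⟶ M) (g : (T.Q 0).X2 ⟶ T.Y 0),
      f = ψ3 ≫ k ≫ a.inv ≫ E.p + (T.Q 0).i ≫ g) :
    ∀ i, ∀ x : Ext.{w} M M (i + 1), x = 0 := by
  have kc : (E.kap : Ext.{w} (T.Y 0) M 3).comp (Ext.mk₀ (a.inv ≫ E.p)) (add_zero 3) ≠ 0 := by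
    intro h0
    rw [E.kap_comp_mk₀] at h0
    have h1 := ψ.th3_mk₀ (N := T.Y 0) (a.inv ≫ E.p)
    rw [h0, Ext.comp_zero] at h1
    obtain ⟨g, hg⟩ := T.I3_zero 0 h1.symm
    exact nd1 g hg
  have k0 : (E.kap : Ext.{w} (T.Y 0) M 3) ≠ 0 := by
    intro h0
    apply kc
    rw [h0, Ext.zero_comp]
  have hinj : ∀ g : T.Y 0 ⟶ T.Y 0,
      ((Ext.mk₀ g).comp (E.kap : Ext.{w} (T.Y 0) M 3) (zero_add 3)).comp
        (Ext.mk₀ (a.inv ≫ E.p)) (add_zero 3) = 0 →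
      (Ext.mk₀ g).comp (E.kap : Ext.{w} (T.Y 0) M 3) (zero_add 3) = 0 := by
    intro g hg
    rcases hY g with rfl | hgi
    · rw [Ext.mk₀_zero, Ext.zero_comp]
    · exfalso
      apply kc
      have h1 : (Ext.mk₀ (inv g)).comp (((Ext.mk₀ g).comp (E.kap : Ext.{w} (T.Y 0) M 3)
          (zero_add 3)).comp (Ext.mk₀ (a.inv ≫ E.p)) (add_zero 3)) (zero_add 3) =
          (E.kap : Ext.{w} (T.Y 0) M 3).comp (Ext.mk₀ (a.inv ≫ E.p)) (add_zero 3) := by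
        rw [Ext.comp_assoc_of_third_deg_zero, ← mk₀_comp_comp, IsIso.inv_hom_id,
          Ext.mk₀_id_comp]
      rw [← h1, hg, Ext.comp_zero]
  have hsurj : ∀ z : Ext.{w} (T.Y 0) (T.Y 0) 3, ∃ v : Ext.{w} (T.Y 0) M 3,
      v.comp (Ext.mk₀ (a.inv ≫ E.p)) (add_zero 3) = z := by
    intro z
    obtain ⟨f, hf⟩ := T.I3_surj 0 ((Ext.mk₀ (T.π 0)).comp z (zero_add 3))
    obtain ⟨k, g, rfl⟩ := nd2 f
    refine ⟨E.th3 (Ext.mk₀ k), ?_⟩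
    have h1 := E.th3_comp_mk₀ (Ext.mk₀ k : Ext.{w} M M 0) (a.inv ≫ E.p)
    rw [Ext.mk₀_comp_mk₀] at h1
    have h2 : (E.th3 (Ext.mk₀ k : Ext.{w} M M 0)).comp (Ext.mk₀ (a.inv ≫ E.p)) (add_zero 3) =
        E.th3 (Ext.mk₀ (k ≫ a.inv ≫ E.p)) := h1
    rw [h2, ← sub_eq_zero]
    apply T.y0_of_i0 h 2
    rw [sub_eq_add_neg, Ext.comp_add, Ext.comp_neg, ψ.th3_mk₀, ← hf, Ext.mk₀_add, Ex4.th3_add,
      (T.Q 0).th3_mk₀_i, add_zero, add_neg_cancel]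
  obtain ⟨hz, h3⟩ := ext_Y_M E a hP2 hP1 (T.ext_Y0_1 h) (T.ext_Y0_2 h) (T.ext_Y0_4 h) hinj hsurj
  refine lemB E a hz hex ?_ ?_
  · intro y
    obtain ⟨g, rfl⟩ := h3 y
    obtain ⟨k, ⟨φ⟩⟩ := hE g
    refine ⟨k, ?_⟩
    have h1 := φ.th3_nat (Ext.mk₀ (𝟙 M) : Ext.{w} M M 0)
    rw [Ext.comp_mk₀_id] at h1
    exact h1.symm
  · intro f hf
    rcases hM f with rfl | hfi
    · exact ⟨0, by rw [comp_zero]⟩
    · exfalso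
      apply k0
      have h1 : ((E.kap : Ext.{w} (T.Y 0) M 3).comp (Ext.mk₀ f) (add_zero 3)).comp
          (Ext.mk₀ (inv f)) (add_zero 3) = E.kap := by
        rw [Ext.comp_assoc_of_third_deg_zero, Ext.mk₀_comp_mk₀, IsIso.hom_inv_id,
          Ext.comp_mk₀_id]
      rw [← h1, E.kap_comp_mk₀, hf, Ext.zero_comp]

end Tower

end Vale.Agent.P195.F
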