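import Vale.Agent.Lib.P195.Formal.Lin
import Vale.Agent.Lib.P195.Formal.Main2
import Vale.Agent.Lib.P195.ExtAux

/-!
# P195: the second formal theorem (`Ext^i(M, M) = 0`) in terms of linear maps
-/

namespace Vale.Agent.P195.F

open CategoryTheory CategoryTheory.Abelian

universe v u

variable {R : Type u} [Ring R]

/-- the conditions on `Y_0` as second argument: orthogonality of `Y_n` and `Y_0` for `n ≥ 1` -/
structure LTower.Orth (T : LTower.{v} R) : Prop where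
  x0 : ∀ n, ∀ f : T.Q0 (n + 1) →ₗ[R] T.Y 0, (∀ x, f ((T.Q (n + 1)).d1 x) = 0) → f = 0
  x1 : ∀ n, ∀ f : T.Q1 n →ₗ[R] T.Y 0, (∀ x, f ((T.Q n).d2 x) = 0) →
    ∃ g : T.Q0 n →ₗ[R] T.Y 0, ∀ x, f x = g ((T.Q n).d1 x)
  x2 : ∀ n, ∀ f : T.Q2 n →ₗ[R] T.Y 0, (∀ x, f ((T.Q n).i x) = 0) →
    ∃ g : T.Q1 n →ₗ[R] T.Y 0, ∀ x, f x = g ((T.Q n).d2 x)
  x3 : ∀ n, ∀ f : T.Q3 (n + 1) →ₗ[R] T.Y 0, ∃ g : T.Q2 (n + 1) →ₗ[R] T.Y 0,
    ∀ x, f x = g ((T.Q (n + 1)).i x)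

namespace LTower

theorem Orth.orth [Small.{v} R] {T : LTower.{v} R} (h : T.Orth) : T.tower.Orth where
  x0 := by
    intro n f hf
    exact ModuleCat.hom_ext (h.x0 n f.hom (fun x => congrArg (fun k => k.hom x) hf))
  x1 := by
    intro n f hf
    obtain ⟨g, hg⟩ := h.x1 n f.hom (fun x => congrArg (fun k => k.hom x) hf)
    exact ⟨ModuleCat.ofHom g, ModuleCat.hom_ext (LinearMap.ext hg)⟩
  x2 := by
    intro n f hf
    obtain ⟨g, hg⟩ := h.x2 n f.hom (fun x => congrArg (fun k => k.hom x) hf)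
    exact ⟨ModuleCat.ofHom g, ModuleCat.hom_ext (LinearMap.ext hg)⟩
  x3 := by
    intro n f
    obtain ⟨g, hg⟩ := h.x3 n f.hom
    exact ⟨ModuleCat.ofHom g, ModuleCat.hom_ext (LinearMap.ext hg)⟩

/-- `Ext^i(Y_0, N) = 0` for all `i`, if `T.Good N` and `J_0 → J_1` is injective -/
theorem ext_Y0_zero [Small.{v} R] {T : LTower.{v} R} {N : Type v} [AddCommGroup N] [Module R N]
    (h : T.Good N)
    (h4 : ∀ (f : T.Q3 0 →ₗ[R] N) (g : T.Q2 1 →ₗ[R] N), (∀ x, f (T.φ3 0 x) = g ((T.Q 1).i x)) →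
      ∃ g' : T.Q2 0 →ₗ[R] N, ∀ x, f x = g' ((T.Q 0).i x)) (i : ℕ) :
    ∀ x : Ext.{v} (T.Y 0) (ModuleCat.of R N) i, x = 0 := by
  by_cases hi : i = 3
  · subst hi
    refine T.tower.ext3_zero h.good ?_
    intro f g hfg
    obtain ⟨g', hg'⟩ := h4 f.hom g.hom (fun x => congrArg (fun k => k.hom x) hfg)
    exact ⟨ModuleCat.ofHom g', ModuleCat.hom_ext (LinearMap.ext hg')⟩
  · exact T.tower.ext_zero h.good 0 i hi

/-- the scalar `c` as an endomorphism of a module over a `k`-algebra -/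
def sc {k : Type*} [Field k] [Algebra k R] (X : Type v) [AddCommGroup X] [Module R X] (c : k) :
    X →ₗ[R] X where
  toFun x := algebraMap k R c • x
  map_add' x y := smul_add _ _ _
  map_smul' r x := by
    rw [RingHom.id_apply, smul_smul, smul_smul, Algebra.commutes]

theorem sc_apply {k : Type*} [Field k] [Algebra k R] (X : Type v) [AddCommGroup X] [Module R X]
    (c : k) (x : X) : sc (R := R) X c x = algebraMap k R c • x := rfl

/-- scalar endomorphisms are zero or invertible -/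
theorem zero_or_iso {k : Type*} [Field k] [Algebra k R] (X : ModuleCat.{v} R) (f : X ⟶ X) (c : k)
    (h : ∀ x, f.hom x = algebraMap k R c • x) : f = 0 ∨ IsIso f := by
  by_cases hc : c = 0
  · left
    subst hc
    apply ModuleCat.hom_ext
    apply LinearMap.ext
    intro x
    rw [h x, map_zero, zero_smul]
    rfl
  · right
    refine ⟨ModuleCat.ofHom (sc (R := R) X c⁻¹), ?_, ?_⟩
    · apply ModuleCat.hom_ext
      apply LinearMap.ext
      intro x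
      change algebraMap k R c⁻¹ • f.hom x = x
      rw [h x, smul_smul, ← map_mul, inv_mul_cancel₀ hc, map_one, one_smul]
    · apply ModuleCat.hom_ext
      apply LinearMap.ext
      intro x
      change f.hom (algebraMap k R c⁻¹ • x) = x
      rw [h, smul_smul, ← map_mul, mul_inv_cancel₀ hc, map_one, one_smul]

/-- the scalar endomorphism of an exact sequence -/
def scHom {k : Type*} [Field k] [Algebra k R] {A X2 X1 X0 I : ModuleCat.{v} R}
    (E : LEx4 A X2 X1 X0 I) (c : k) : LHom4 E E (sc (R := R) A c) (sc (R := R) I c) where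
  x2 := sc X2 c
  x1 := sc X1 c
  x0 := sc X0 c
  ci := fun x => by rw [sc_apply, sc_apply, map_smul]
  c2 := fun x => by rw [sc_apply, sc_apply, map_smul]
  c1 := fun x => by rw [sc_apply, sc_apply, map_smul]
  cp := fun x => by rw [sc_apply, sc_apply, map_smul]

/-- **Second formal theorem**, for modules over an algebra over a field: `Ext^i(M, M) = 0`. -/
theorem main2 {k : Type*} [Field k] [Algebra k R] [Small.{v} R] (T : LTower.{v} R) (h : T.Orth)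
    (M : Type v) [AddCommGroup M] [Module R M] {P2 P1 : ModuleCat.{v} R}
    (hP2 : Module.Projective R P2) (hP1 : Module.Projective R P1)
    (E : LEx4 (ModuleCat.of R M) P2 P1 (ModuleCat.of R M) (T.Y 0))
    (ψ3 : T.Q3 0 →ₗ[R] M) (ψ : LHom4 (T.Q 0) E ψ3 (T.π 0))
    (hE2 : ∀ i, ∀ x : Ext.{v} (T.Y 0) P2 i, x = 0)
    (hE1 : ∀ i, ∀ x : Ext.{v} (T.Y 0) P1 i, x = 0)
    (hex : ∀ f : P2 →ₗ[R] M, (∀ x, f (E.i x) = 0) → ∃ g : P1 →ₗ[R] M, ∀ x, f x = g (E.d2 x))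
    (hM : ∀ f : M →ₗ[R] M, ∃ c : k, ∀ x, f x = algebraMap k R c • x)
    (hY : ∀ f : T.Y 0 →ₗ[R] T.Y 0, ∃ c : k, ∀ x, f x = algebraMap k R c • x)
    (nd1 : ∀ g : T.Q2 0 →ₗ[R] T.Y 0, ∃ x, E.p (ψ3 x) ≠ g ((T.Q 0).i x))
    (nd2 : ∀ f : T.Q3 0 →ₗ[R] T.Y 0, ∃ (c : k) (g : T.Q2 0 →ₗ[R] T.Y 0),
      ∀ x, f x = algebraMap k R c • E.p (ψ3 x) + g ((T.Q 0).i x)) :
    ∀ i : ℕ, 1 ≤ i → Subsingleton (Ext.{v} (ModuleCat.of R M) (ModuleCat.of R M) i) := by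
  intro i hi
  obtain ⟨j, rfl⟩ := Nat.exists_eq_add_of_le' hi
  refine subsingleton_of_forall_eq 0 ?_
  have hp2 : Projective E.ex4.X2 := proj_of _ hP2
  have hp1 : Projective E.ex4.X1 := proj_of _ hP1
  refine T.tower.main2 (M := ModuleCat.of R M) h.orth E.ex4 (Iso.refl _) (ModuleCat.ofHom ψ3)
    ψ.hom4 hE2 hE1 ?_ ?_ ?_ ?_ ?_ ?_ j
  · intro f hf
    obtain ⟨g, hg⟩ := hex f.hom (fun x => congrArg (fun k => k.hom x) hf)
    exact ⟨ModuleCat.ofHom g, ModuleCat.hom_ext (LinearMap.ext hg)⟩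
  · intro f
    obtain ⟨c, hc⟩ := hM f.hom
    exact zero_or_iso (ModuleCat.of R M) f c hc
  · intro f
    obtain ⟨c, hc⟩ := hY f.hom
    exact zero_or_iso (T.Y 0) f c hc
  · intro g
    obtain ⟨c, hc⟩ := hY g.hom
    refine ⟨ModuleCat.ofHom (sc (R := R) M c), ⟨?_⟩⟩
    have h1 : g = ModuleCat.ofHom (sc (R := R) (T.Y 0) c) :=
      ModuleCat.hom_ext (LinearMap.ext hc)
    rw [h1]
    exact (scHom E c).hom4
  · intro g hg
    obtain ⟨x, hx⟩ := nd1 g.hom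
    exact hx (congrArg (fun k => k.hom x) hg)
  · intro f
    obtain ⟨c, g, hg⟩ := nd2 f.hom
    refine ⟨ModuleCat.ofHom (sc (R := R) M c), ModuleCat.ofHom g, ?_⟩
    apply ModuleCat.hom_ext
    apply LinearMap.ext
    intro x
    refine (hg x).trans ?_
    change algebraMap k R c • E.p (ψ3 x) + g ((T.Q 0).i x) =
      E.p (algebraMap k R c • ψ3 x) + g ((T.Q 0).i x)
    rw [map_smul]

end LTower

/-- **Everything together**: if all the Hom-conditions hold then `M` is a counterexample. -/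
theorem counterexample {k : Type*} [Field k] {R : Type u} [Ring R] [Algebra k R]
    (T : LTower.{u} R)
    (hgood : T.Good R) (horth : T.Orth)
    (hJ0 : ∀ (f : T.Q3 0 →ₗ[R] R) (g : T.Q2 1 →ₗ[R] R), (∀ x, f (T.φ3 0 x) = g ((T.Q 1).i x)) →
      ∃ g' : T.Q2 0 →ₗ[R] R, ∀ x, f x = g' ((T.Q 0).i x))
    (M : Type u) [AddCommGroup M] [Module R M] {P2 P1 : ModuleCat.{u} R}
    (hP2 : Module.Projective R P2) (hP1 : Module.Projective R P1)
    (hP2' : Module.Finite R P2) (hP1' : Module.Finite R P1)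
    (E : LEx4 (ModuleCat.of R M) P2 P1 (ModuleCat.of R M) (T.Y 0))
    (ψ3 : T.Q3 0 →ₗ[R] M) (ψ : LHom4 (T.Q 0) E ψ3 (T.π 0))
    (hexR : ∀ f : P2 →ₗ[R] R, (∀ x, f (E.i x) = 0) → ∃ g : P1 →ₗ[R] R, ∀ x, f x = g (E.d2 x))
    (hextR : ∀ f : M →ₗ[R] R, ∃ g : P2 →ₗ[R] R, ∀ x, f x = g (E.i x))
    (hexM : ∀ f : P2 →ₗ[R] M, (∀ x, f (E.i x) = 0) → ∃ g : P1 →ₗ[R] M, ∀ x, f x = g (E.d2 x))
    (hM : ∀ f : M →ₗ[R] M, ∃ c : k, ∀ x, f x = algebraMap k R c • x)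
    (hY : ∀ f : T.Y 0 →ₗ[R] T.Y 0, ∃ c : k, ∀ x, f x = algebraMap k R c • x)
    (nd1 : ∀ g : T.Q2 0 →ₗ[R] T.Y 0, ∃ x, E.p (ψ3 x) ≠ g ((T.Q 0).i x))
    (nd2 : ∀ f : T.Q3 0 →ₗ[R] T.Y 0, ∃ (c : k) (g : T.Q2 0 →ₗ[R] T.Y 0),
      ∀ x, f x = algebraMap k R c • E.p (ψ3 x) + g ((T.Q 0).i x)) :
    (∀ i : ℕ, 1 ≤ i → Subsingleton (Ext (ModuleCat.of R M) (ModuleCat.of R M) i)) ∧
    (∀ i : ℕ, 1 ≤ i → Subsingleton (Ext (ModuleCat.of R M) (ModuleCat.of R R) i)) := by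
  have hE : ∀ i, ∀ x : Ext.{u} (T.Y 0) (ModuleCat.of R R) i, x = 0 :=
    LTower.ext_Y0_zero hgood hJ0
  refine ⟨?_, ?_⟩
  · exact T.main2 horth M hP2 hP1 E ψ3 ψ
      (fun i x => Vale.Agent.P195.ext_eq_zero_of_projective_right (hE i) P2 x)
      (fun i x => Vale.Agent.P195.ext_eq_zero_of_projective_right (hE i) P1 x)
      hexM hM hY nd1 nd2
  · refine T.main M R hgood hP2 hP1 E ψ3 ψ hexR ?_ ?_
    · intro f g hfg
      obtain ⟨g', hg'⟩ := hJ0 f g hfg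
      refine ⟨0, g', fun x => ?_⟩
      rw [hg' x]
      simp
    · intro f _ _
      exact hextR f

end Vale.Agent.P195.F
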