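import Vale.Agent.Lib.P195.Formal.Tower

/-!
# P195: the formal theorem in terms of linear maps over a ring
-/

namespace Vale.Agent.P195.F

open CategoryTheory CategoryTheory.Abelian

universe v u

variable {R : Type u} [Ring R]

/-- exactness in `ModuleCat` from exactness of linear maps -/
theorem exact_of {X Y T : ModuleCat.{v} R} (f : X →ₗ[R] Y) (g : Y →ₗ[R] T)
    (h : Function.Exact f g) (w : ModuleCat.ofHom f ≫ ModuleCat.ofHom g = 0) :
    (ShortComplex.mk (ModuleCat.ofHom f : X ⟶ Y) (ModuleCat.ofHom g : Y ⟶ T) w).Exact :=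
  (ShortComplex.ShortExact.moduleCat_exact_iff_function_exact _).2 h

theorem zero_of {X Y T : ModuleCat.{v} R} (f : X →ₗ[R] Y) (g : Y →ₗ[R] T)
    (h : Function.Exact f g) :
    (ModuleCat.ofHom f : X ⟶ Y) ≫ (ModuleCat.ofHom g : Y ⟶ T) = 0 := by
  apply ModuleCat.hom_ext
  apply LinearMap.ext
  intro x
  exact h.apply_apply_eq_zero x

theorem shortExact_of {X Y T : ModuleCat.{v} R} (f : X →ₗ[R] Y) (g : Y →ₗ[R] T)
    (hf : Function.Injective f) (h : Function.Exact f g) (hg : Function.Surjective g) :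
    (ShortComplex.mk (ModuleCat.ofHom f : X ⟶ Y) (ModuleCat.ofHom g : Y ⟶ T)
      (zero_of f g h)).ShortExact :=
  ShortComplex.ShortExact.mk' (exact_of f g h _) ((ModuleCat.mono_iff_injective _).2 hf)
    ((ModuleCat.epi_iff_surjective _).2 hg)

/-- an exact sequence `0 → A → X2 → X1 → X0 → I → 0` of linear maps -/
structure LEx4 (A X2 X1 X0 I : ModuleCat.{v} R) where
  i : A →ₗ[R] X2
  d2 : X2 →ₗ[R] X1
  d1 : X1 →ₗ[R] X0
  p : X0 →ₗ[R] I
  inj : Function.Injective i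
  ex3 : Function.Exact i d2
  ex2 : Function.Exact d2 d1
  ex1 : Function.Exact d1 p
  surj : Function.Surjective p

/-- the corresponding exact sequence in the category of modules -/
def LEx4.ex4 {A X2 X1 X0 I : ModuleCat.{v} R} (E : LEx4 A X2 X1 X0 I) : Ex4 A I where
  X2 := X2
  X1 := X1
  X0 := X0
  i := ModuleCat.ofHom E.i
  d2 := ModuleCat.ofHom E.d2
  d1 := ModuleCat.ofHom E.d1
  p := ModuleCat.ofHom E.p
  w3 := zero_of E.i E.d2 E.ex3
  w2 := zero_of E.d2 E.d1 E.ex2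
  w1 := zero_of E.d1 E.p E.ex1
  mono_i := (ModuleCat.mono_iff_injective _).2 E.inj
  ex3 := exact_of E.i E.d2 E.ex3 _
  ex2 := exact_of E.d2 E.d1 E.ex2 _
  ex1 := exact_of E.d1 E.p E.ex1 _
  epi_p := (ModuleCat.epi_iff_surjective _).2 E.surj

/-- a morphism of such exact sequences -/
structure LHom4 {A X2 X1 X0 I A' X2' X1' X0' I' : ModuleCat.{v} R} (E : LEx4 A X2 X1 X0 I)
    (E' : LEx4 A' X2' X1' X0' I') (a : A →ₗ[R] A') (b : I →ₗ[R] I') where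
  x2 : X2 →ₗ[R] X2'
  x1 : X1 →ₗ[R] X1'
  x0 : X0 →ₗ[R] X0'
  ci : ∀ x, x2 (E.i x) = E'.i (a x)
  c2 : ∀ x, x1 (E.d2 x) = E'.d2 (x2 x)
  c1 : ∀ x, x0 (E.d1 x) = E'.d1 (x1 x)
  cp : ∀ x, b (E.p x) = E'.p (x0 x)

/-- the corresponding morphism in the category of modules -/
def LHom4.hom4 {A X2 X1 X0 I A' X2' X1' X0' I' : ModuleCat.{v} R} {E : LEx4 A X2 X1 X0 I}
    {E' : LEx4 A' X2' X1' X0' I'} {a : A →ₗ[R] A'} {b : I →ₗ[R] I'} (φ : LHom4 E E' a b) :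
    Hom4 E.ex4 E'.ex4 (ModuleCat.ofHom a) (ModuleCat.ofHom b) where
  x2 := ModuleCat.ofHom φ.x2
  x1 := ModuleCat.ofHom φ.x1
  x0 := ModuleCat.ofHom φ.x0
  ci := ModuleCat.hom_ext (LinearMap.ext φ.ci)
  c2 := ModuleCat.hom_ext (LinearMap.ext φ.c2)
  c1 := ModuleCat.hom_ext (LinearMap.ext φ.c1)
  cp := ModuleCat.hom_ext (LinearMap.ext φ.cp)

variable (R) in
/-- the tower of short exact sequences with resolutions and chain maps, for modules over `R` -/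
structure LTower where
  Y : ℕ → ModuleCat.{v} R
  I : ℕ → ModuleCat.{v} R
  Q3 : ℕ → ModuleCat.{v} R
  Q2 : ℕ → ModuleCat.{v} R
  Q1 : ℕ → ModuleCat.{v} R
  Q0 : ℕ → ModuleCat.{v} R
  ι : ∀ n, Y (n + 1) →ₗ[R] I n
  π : ∀ n, I n →ₗ[R] Y n
  ι_inj : ∀ n, Function.Injective (ι n)
  exact : ∀ n, Function.Exact (ι n) (π n)
  π_surj : ∀ n, Function.Surjective (π n)
  Q : ∀ n, LEx4 (Q3 n) (Q2 n) (Q1 n) (Q0 n) (I n)
  proj3 : ∀ n, Module.Projective R (Q3 n)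
  proj2 : ∀ n, Module.Projective R (Q2 n)
  proj1 : ∀ n, Module.Projective R (Q1 n)
  proj0 : ∀ n, Module.Projective R (Q0 n)
  φ3 : ∀ n, Q3 (n + 1) →ₗ[R] Q3 n
  φ : ∀ n, LHom4 (Q (n + 1)) (Q n) (φ3 n) (ι n ∘ₗ π (n + 1))

/-- the conditions on `N`, in terms of linear maps only -/
structure LTower.Good (T : LTower.{v} R) (N : Type v) [AddCommGroup N] [Module R N] : Prop where
  h0 : ∀ n, ∀ f : T.Q0 n →ₗ[R] N, (∀ x, f ((T.Q n).d1 x) = 0) → f = 0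
  h1 : ∀ n, ∀ f : T.Q1 n →ₗ[R] N, (∀ x, f ((T.Q n).d2 x) = 0) →
    ∃ g : T.Q0 n →ₗ[R] N, ∀ x, f x = g ((T.Q n).d1 x)
  h2 : ∀ n, ∀ f : T.Q2 n →ₗ[R] N, (∀ x, f ((T.Q n).i x) = 0) →
    ∃ g : T.Q1 n →ₗ[R] N, ∀ x, f x = g ((T.Q n).d2 x)
  hJ : ∀ n (f : T.Q3 (n + 1) →ₗ[R] N) (g : T.Q2 (n + 2) →ₗ[R] N),
    (∀ x, f (T.φ3 (n + 1) x) = g ((T.Q (n + 2)).i x)) →
      ∃ (h : T.Q3 n →ₗ[R] N) (g' : T.Q2 (n + 1) →ₗ[R] N),
        ∀ x, f x = h (T.φ3 n x) + g' ((T.Q (n + 1)).i x)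

namespace LTower

variable (T : LTower.{v} R)

/-- projective objects of `ModuleCat` -/
theorem proj_of [Small.{v} R] (P : ModuleCat.{v} R) (h : Module.Projective R P) : Projective P :=
  (IsProjective.iff_projective.{v, u} (R := R) P).1 h

/-- the corresponding tower in the category of modules -/
def tower [Small.{v} R] : Tower (ModuleCat.{v} R) where
  Y := T.Y
  I := T.I
  ι := fun n => ModuleCat.ofHom (T.ι n)
  π := fun n => ModuleCat.ofHom (T.π n)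
  wz := fun n => zero_of (T.ι n) (T.π n) (T.exact n)
  ses := fun n => shortExact_of (T.ι n) (T.π n) (T.ι_inj n) (T.exact n) (T.π_surj n)
  Q3 := T.Q3
  Q := fun n => (T.Q n).ex4
  proj3 := fun n => proj_of _ (T.proj3 n)
  proj2 := fun n => proj_of _ (T.proj2 n)
  proj1 := fun n => proj_of _ (T.proj1 n)
  proj0 := fun n => proj_of _ (T.proj0 n)
  φ3 := fun n => ModuleCat.ofHom (T.φ3 n)
  φ := fun n => (T.φ n).hom4

theorem Good.good [Small.{v} R] {T : LTower.{v} R} {N : Type v} [AddCommGroup N] [Module R N]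
    (h : T.Good N) : T.tower.Good (ModuleCat.of R N) where
  h0 := by
    intro n f hf
    have h1 := h.h0 n f.hom (fun x => congrArg (fun k => k.hom x) hf)
    exact ModuleCat.hom_ext h1
  h1 := by
    intro n f hf
    obtain ⟨g, hg⟩ := h.h1 n f.hom (fun x => congrArg (fun k => k.hom x) hf)
    exact ⟨ModuleCat.ofHom g, ModuleCat.hom_ext (LinearMap.ext hg)⟩
  h2 := by
    intro n f hf
    obtain ⟨g, hg⟩ := h.h2 n f.hom (fun x => congrArg (fun k => k.hom x) hf)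
    exact ⟨ModuleCat.ofHom g, ModuleCat.hom_ext (LinearMap.ext hg)⟩
  hJ := by
    intro n f g hfg
    obtain ⟨k, g', hk⟩ := h.hJ n f.hom g.hom (fun x => congrArg (fun k => k.hom x) hfg)
    exact ⟨ModuleCat.ofHom k, ModuleCat.ofHom g', ModuleCat.hom_ext (LinearMap.ext hk)⟩

/-- **Main formal theorem**, for modules over a ring. `0 → M → P2 → P1 → M → Y_0 → 0` exact with
`P2`, `P1` projective, `ψ` a morphism from the resolution of `I_0` to it over `π_0`. -/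
theorem main [Small.{v} R] (M : Type v) [AddCommGroup M] [Module R M] (N : Type v)
    [AddCommGroup N] [Module R N] (h : T.Good N) {P2 P1 : ModuleCat.{v} R}
    (hP2 : Module.Projective R P2) (hP1 : Module.Projective R P1)
    (E : LEx4 (ModuleCat.of R M) P2 P1 (ModuleCat.of R M) (T.Y 0))
    (ψ3 : T.Q3 0 →ₗ[R] M) (ψ : LHom4 (T.Q 0) E ψ3 (T.π 0))
    (hex : ∀ f : P2 →ₗ[R] N, (∀ x, f (E.i x) = 0) → ∃ g : P1 →ₗ[R] N, ∀ x, f x = g (E.d2 x))
    (h4 : ∀ (f : T.Q3 0 →ₗ[R] N) (g : T.Q2 1 →ₗ[R] N), (∀ x, f (T.φ3 0 x) = g ((T.Q 1).i x)) →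
      ∃ (k : M →ₗ[R] N) (g' : T.Q2 0 →ₗ[R] N), ∀ x, f x = k (ψ3 x) + g' ((T.Q 0).i x))
    (h5 : ∀ (k : M →ₗ[R] N) (g : T.Q2 0 →ₗ[R] N), (∀ x, k (ψ3 x) = g ((T.Q 0).i x)) →
      ∃ g' : P2 →ₗ[R] N, ∀ x, k x = g' (E.i x)) :
    ∀ i : ℕ, 1 ≤ i → Subsingleton (Ext.{v} (ModuleCat.of R M) (ModuleCat.of R N) i) := by
  intro i hi
  obtain ⟨j, rfl⟩ := Nat.exists_eq_add_of_le' hi
  refine subsingleton_of_forall_eq 0 ?_
  have hp2 : Projective E.ex4.X2 := proj_of _ hP2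
  have hp1 : Projective E.ex4.X1 := proj_of _ hP1
  refine T.tower.main (M := ModuleCat.of R M) h.good E.ex4 (Iso.refl _) (ModuleCat.ofHom ψ3)
    ψ.hom4 ?_ ?_ ?_ j
  · intro f hf
    obtain ⟨g, hg⟩ := hex f.hom (fun x => congrArg (fun k => k.hom x) hf)
    exact ⟨ModuleCat.ofHom g, ModuleCat.hom_ext (LinearMap.ext hg)⟩
  · intro f g hfg
    obtain ⟨k, g', hk⟩ := h4 f.hom g.hom (fun x => congrArg (fun k => k.hom x) hfg)
    exact ⟨ModuleCat.ofHom k, ModuleCat.ofHom g', ModuleCat.hom_ext (LinearMap.ext hk)⟩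
  · intro k g hkg
    obtain ⟨g', hg'⟩ := h5 k.hom g.hom (fun x => congrArg (fun k => k.hom x) hkg)
    exact ⟨ModuleCat.ofHom g', ModuleCat.hom_ext (LinearMap.ext hg')⟩

end LTower

end Vale.Agent.P195.F
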