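import Mathlib.Algebra.Category.ModuleCat.Abelian
import Mathlib.Algebra.Category.ModuleCat.Projective
import Mathlib.Algebra.Category.ModuleCat.EnoughInjectives
import Mathlib.Algebra.Category.ModuleCat.Ext.Basic
import Mathlib.Algebra.Category.ModuleCat.Ext.HasExt
import Mathlib.Algebra.Category.ModuleCat.Ext.DimensionShifting
import Mathlib.Algebra.Homology.DerivedCategory.Ext.EnoughProjectives
import Mathlib.Algebra.Homology.DerivedCategory.Ext.EnoughInjectives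
import Mathlib.Algebra.Homology.DerivedCategory.Ext.ExactSequences
import Mathlib.Algebra.Homology.DerivedCategory.Ext.Linear
import Mathlib.Tactic

/-!
# P195: exact sequences `0 → A → X2 → X1 → X0 → I → 0` and their classes in `Ext^3`
-/

namespace Vale.Agent.P195.F

open CategoryTheory CategoryTheory.Abelian CategoryTheory.Limits

universe w v u

variable {C : Type u} [Category.{v} C] [Abelian C]

/-! ## dimension shifting along one short exact sequence -/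

section

variable [HasExt.{w} C] {X Y T N : C} {f : X ⟶ Y} {g : Y ⟶ T} {w : f ≫ g = 0}
  (hS : (ShortComplex.mk f g w).ShortExact)

/-- the class of a short exact sequence `0 → X → Y → T → 0` in `Ext^1(T, X)` -/
noncomputable def cl : Ext.{w} T X 1 := hS.extClass

/-- `Ext^n(X, N) = 0` -/
def Z (X N : C) (n : ℕ) : Prop := ∀ x : Ext.{w} X N n, x = 0

theorem Z.of_projective {P N : C} [Projective P] (n : ℕ) : Z.{w} P N (n + 1) :=
  fun x => Ext.eq_zero_of_projective x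

theorem exists_δ {n : ℕ} (h : Z.{w} Y N (n + 1)) (x : Ext.{w} T N (n + 1)) :
    ∃ y : Ext.{w} X N n, (cl hS).comp y (add_comm 1 n) = x :=
  Ext.contravariant_sequence_exact₃ hS N x (h _) (add_comm 1 n)

theorem exists_of_δ_eq_zero {n : ℕ} {y : Ext.{w} X N n} {m : ℕ} {hm : 1 + n = m}
    (h : (cl hS).comp y hm = 0) :
    ∃ z : Ext.{w} Y N n, (Ext.mk₀ f).comp z (zero_add n) = y :=
  Ext.contravariant_sequence_exact₁ hS N y hm h

theorem eq_zero_of_δ_eq_zero {n : ℕ} (h2 : Z.{w} Y N n) {y : Ext.{w} X N n} {m : ℕ}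
    {hm : 1 + n = m} (h : (cl hS).comp y hm = 0) : y = 0 := by
  obtain ⟨z, rfl⟩ := exists_of_δ_eq_zero hS h
  rw [h2 z, Ext.comp_zero]

include hS in
theorem exists_of_restrict_eq_zero {n : ℕ} {x : Ext.{w} Y N n}
    (h : (Ext.mk₀ f).comp x (zero_add n) = 0) :
    ∃ y : Ext.{w} T N n, (Ext.mk₀ g).comp y (zero_add n) = x :=
  Ext.contravariant_sequence_exact₂ hS N x h

include hS in
theorem Z.of_ses {n : ℕ} (h1 : Z.{w} X N n) (h2 : Z.{w} Y N (n + 1)) :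
    Z.{w} T N (n + 1) := by
  intro x
  obtain ⟨y, rfl⟩ := exists_δ hS h2 x
  rw [h1 y, Ext.comp_zero]

include hS in
theorem inj_of_ses {n : ℕ} (h1 : Z.{w} X N n) {x : Ext.{w} T N (n + 1)}
    (h : (Ext.mk₀ g).comp x (zero_add (n + 1)) = 0) : x = 0 := by
  obtain ⟨y, hy⟩ := Ext.contravariant_sequence_exact₃ hS N x h (add_comm 1 n)
  rw [← hy]
  have h2 : y = 0 := h1 y
  rw [h2]
  exact Ext.comp_zero (cl hS) N n _ _

theorem cl_comp_f {n m : ℕ} {hm : 1 + n = m} (y : Ext.{w} Y N n) :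
    (cl hS).comp ((Ext.mk₀ f).comp y (zero_add n)) hm = 0 :=
  hS.extClass_comp_assoc y

theorem g_comp_cl {n m : ℕ} {hm : 1 + n = m} (y : Ext.{w} X N n) :
    (Ext.mk₀ g).comp ((cl hS).comp y hm) (zero_add m) = 0 :=
  hS.comp_extClass_assoc y hm

theorem cl_comp_mk₀ (h : Y ⟶ N) {hm : 1 + 0 = 1} :
    (cl hS).comp (Ext.mk₀ (f ≫ h) : Ext.{w} X N 0) hm = 0 := by
  rw [← Ext.mk₀_comp_mk₀]
  exact cl_comp_f hS (Ext.mk₀ h)

theorem z_zero_iff {X N : C} : Z.{w} X N 0 ↔ ∀ f : X ⟶ N, f = 0 := by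
  constructor
  · intro h f
    exact (Ext.mk₀_eq_zero_iff f).1 (h (Ext.mk₀ f))
  · intro h e
    obtain ⟨f, rfl⟩ := (Ext.mk₀_bijective X N).2 e
    rw [h f]
    exact Ext.mk₀_zero X N

theorem exists_mk₀ {X N : C} (x : Ext.{w} X N 0) : ∃ f : X ⟶ N, Ext.mk₀ f = x :=
  (Ext.mk₀_bijective X N).2 x

theorem mk₀_inj {X N : C} {f g : X ⟶ N} (h : (Ext.mk₀ f : Ext.{w} X N 0) = Ext.mk₀ g) : f = g :=
  (Ext.mk₀_bijective X N).1 h

/-- naturality of the class of a short exact sequence -/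
theorem cl_nat {X' Y' T' : C} {f' : X' ⟶ Y'} {g' : Y' ⟶ T'} {w' : f' ≫ g' = 0}
    (hT : (ShortComplex.mk f' g' w').ShortExact) (a : X ⟶ X') (b : Y ⟶ Y') (c : T ⟶ T')
    (h1 : a ≫ f' = f ≫ b) (h2 : b ≫ g' = g ≫ c) {n m : ℕ} (hm : 1 + n = m)
    (y : Ext.{w} X' N n) :
    (Ext.mk₀ c).comp ((cl hT).comp y hm) (zero_add m) =
      (cl hS).comp ((Ext.mk₀ a).comp y (zero_add n)) hm := by
  let φ : ShortComplex.mk f g w ⟶ ShortComplex.mk f' g' w' :=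
    { τ₁ := a
      τ₂ := b
      τ₃ := c
      comm₁₂ := h1
      comm₂₃ := h2 }
  have h3 : (cl hS).comp (Ext.mk₀ a) (add_zero 1) = (Ext.mk₀ c).comp (cl hT) (zero_add 1) :=
    ShortComplex.ShortExact.extClass_naturality hS hT φ
  subst hm
  rw [← Ext.comp_assoc (a₁₂ := 1) (a₂₃ := 1 + n) (Ext.mk₀ c) (cl hT) y (zero_add 1) rfl
    (by omega), ← h3,
    Ext.comp_assoc (a₁₂ := 1) (a₂₃ := n) (cl hS) (Ext.mk₀ a) y (add_zero 1) (zero_add n)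
    (by omega)]

end

/-- an exact sequence `0 → A → X2 → X1 → X0 → I → 0` -/
structure Ex4 (A I : C) where
  X2 : C
  X1 : C
  X0 : C
  i : A ⟶ X2
  d2 : X2 ⟶ X1
  d1 : X1 ⟶ X0
  p : X0 ⟶ I
  w3 : i ≫ d2 = 0
  w2 : d2 ≫ d1 = 0
  w1 : d1 ≫ p = 0
  mono_i : Mono i
  ex3 : (ShortComplex.mk i d2 w3).Exact
  ex2 : (ShortComplex.mk d2 d1 w2).Exact
  ex1 : (ShortComplex.mk d1 p w1).Exact
  epi_p : Epi p

namespace Ex4

variable {A I : C} (E : Ex4 A I)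

/-- `X1 → ker p` -/
noncomputable def q1 : E.X1 ⟶ kernel E.p := kernel.lift E.p E.d1 E.w1

/-- `X2 → ker d1` -/
noncomputable def q2 : E.X2 ⟶ kernel E.d1 := kernel.lift E.d1 E.d2 E.w2

theorem q1_ι : E.q1 ≫ kernel.ι E.p = E.d1 := kernel.lift_ι _ _ _

theorem q2_ι : E.q2 ≫ kernel.ι E.d1 = E.d2 := kernel.lift_ι _ _ _

theorem ι_q1 : kernel.ι E.d1 ≫ E.q1 = 0 := by
  rw [← cancel_mono (kernel.ι E.p), Category.assoc, E.q1_ι, kernel.condition, zero_comp]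

theorem i_q2 : E.i ≫ E.q2 = 0 := by
  rw [← cancel_mono (kernel.ι E.d1), Category.assoc, E.q2_ι, E.w3, zero_comp]

theorem epi_q1 : Epi E.q1 := E.ex1.epi_kernelLift

theorem epi_q2 : Epi E.q2 := E.ex2.epi_kernelLift

/-- `0 → ker p → X0 → I → 0` -/
theorem S1e : (ShortComplex.mk (kernel.ι E.p) E.p (kernel.condition E.p)).ShortExact := by
  have h1 : Mono (ShortComplex.mk (kernel.ι E.p) E.p (kernel.condition E.p)).f := by
    dsimp; infer_instance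
  have h2 : Epi (ShortComplex.mk (kernel.ι E.p) E.p (kernel.condition E.p)).g := E.epi_p
  exact ShortComplex.ShortExact.mk' (ShortComplex.exact_of_f_is_kernel _ (kernelIsKernel _)) h1 h2

/-- `0 → ker d1 → X1 → ker p → 0` -/
theorem S2e : (ShortComplex.mk (kernel.ι E.d1) E.q1 E.ι_q1).ShortExact := by
  have h1 : Mono (ShortComplex.mk (kernel.ι E.d1) E.q1 E.ι_q1).f := by
    dsimp; infer_instance
  have h2 : Epi (ShortComplex.mk (kernel.ι E.d1) E.q1 E.ι_q1).g := E.epi_q1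
  refine ShortComplex.ShortExact.mk' ?_ h1 h2
  have h3 : (ShortComplex.mk (kernel.ι E.d1) E.d1 (kernel.condition E.d1)).Exact :=
    ShortComplex.exact_of_f_is_kernel _ (kernelIsKernel _)
  let φ : ShortComplex.mk (kernel.ι E.d1) E.q1 E.ι_q1 ⟶
      ShortComplex.mk (kernel.ι E.d1) E.d1 (kernel.condition E.d1) :=
    { τ₁ := 𝟙 _
      τ₂ := 𝟙 _
      τ₃ := kernel.ι E.p
      comm₁₂ := by simp
      comm₂₃ := by simp [E.q1_ι] }
  have e1 : Epi φ.τ₁ := by dsimp [φ]; infer_instance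
  have e2 : IsIso φ.τ₂ := by dsimp [φ]; infer_instance
  have e3 : Mono φ.τ₃ := by dsimp [φ]; infer_instance
  exact (ShortComplex.exact_iff_of_epi_of_isIso_of_mono φ).2 h3

/-- `0 → A → X2 → ker d1 → 0` -/
theorem S3e : (ShortComplex.mk E.i E.q2 E.i_q2).ShortExact := by
  have h1 : Mono (ShortComplex.mk E.i E.q2 E.i_q2).f := E.mono_i
  have h2 : Epi (ShortComplex.mk E.i E.q2 E.i_q2).g := E.epi_q2
  refine ShortComplex.ShortExact.mk' ?_ h1 h2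
  let φ : ShortComplex.mk E.i E.q2 E.i_q2 ⟶ ShortComplex.mk E.i E.d2 E.w3 :=
    { τ₁ := 𝟙 _
      τ₂ := 𝟙 _
      τ₃ := kernel.ι E.d1
      comm₁₂ := by simp
      comm₂₃ := by simp [E.q2_ι] }
  have e1 : Epi φ.τ₁ := by dsimp [φ]; infer_instance
  have e2 : IsIso φ.τ₂ := by dsimp [φ]; infer_instance
  have e3 : Mono φ.τ₃ := by dsimp [φ]; infer_instance
  exact (ShortComplex.exact_iff_of_epi_of_isIso_of_mono φ).2 E.ex3

variable [HasExt.{w} C] {N : C}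

/-- iterated connecting map `Ext^n(A, N) → Ext^(n+2)(ker p, N)` -/
noncomputable def th2 {n : ℕ} (x : Ext.{w} A N n) : Ext.{w} (kernel E.p) N (n + 2) :=
  (cl E.S2e).comp ((cl E.S3e).comp x (add_comm 1 n)) (add_comm 1 (n + 1))

/-- iterated connecting map `Ext^n(A, N) → Ext^(n+3)(I, N)` -/
noncomputable def th3 {n : ℕ} (x : Ext.{w} A N n) : Ext.{w} I N (n + 3) :=
  (cl E.S1e).comp (E.th2 x) (add_comm 1 (n + 2))

theorem th2_zero {n : ℕ} : E.th2 (0 : Ext.{w} A N n) = 0 := by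
  unfold th2
  rw [Ext.comp_zero, Ext.comp_zero]

theorem th3_zero {n : ℕ} : E.th3 (0 : Ext.{w} A N n) = 0 := by
  unfold th3
  rw [th2_zero, Ext.comp_zero]

theorem th2_add {n : ℕ} (x y : Ext.{w} A N n) : E.th2 (x + y) = E.th2 x + E.th2 y := by
  unfold th2
  rw [Ext.comp_add, Ext.comp_add]

theorem th3_add {n : ℕ} (x y : Ext.{w} A N n) : E.th3 (x + y) = E.th3 x + E.th3 y := by
  unfold th3
  rw [th2_add, Ext.comp_add]

theorem th2_mk₀_i {g : E.X2 ⟶ N} : E.th2 (Ext.mk₀ (E.i ≫ g) : Ext.{w} A N 0) = 0 := by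
  unfold th2
  rw [cl_comp_mk₀ E.S3e g, Ext.comp_zero]

theorem th3_mk₀_i {g : E.X2 ⟶ N} : E.th3 (Ext.mk₀ (E.i ≫ g) : Ext.{w} A N 0) = 0 := by
  unfold th3
  rw [th2_mk₀_i, Ext.comp_zero]

theorem th2_surj {n : ℕ} (h1 : Z.{w} E.X1 N (n + 2)) (h2 : Z.{w} E.X2 N (n + 1))
    (x : Ext.{w} (kernel E.p) N (n + 2)) : ∃ y : Ext.{w} A N n, E.th2 y = x := by
  obtain ⟨y, hy⟩ := exists_δ E.S2e (n := n + 1) h1 x
  obtain ⟨z, hz⟩ := exists_δ E.S3e (n := n) h2 y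
  refine ⟨z, ?_⟩
  unfold th2
  rw [← hy, ← hz]

theorem th3_surj {n : ℕ} (h0 : Z.{w} E.X0 N (n + 3)) (h1 : Z.{w} E.X1 N (n + 2))
    (h2 : Z.{w} E.X2 N (n + 1)) (x : Ext.{w} I N (n + 3)) : ∃ y : Ext.{w} A N n, E.th3 y = x := by
  obtain ⟨y, hy⟩ := exists_δ E.S1e (n := n + 2) h0 x
  obtain ⟨z, hz⟩ := E.th2_surj h1 h2 y
  refine ⟨z, ?_⟩
  unfold th3
  rw [← hy, ← hz]

theorem of_th3_eq_zero (h0 : Z.{w} E.X0 N 2) (h1 : Z.{w} E.X1 N 1) {f : A ⟶ N}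
    (h : E.th3 (Ext.mk₀ f : Ext.{w} A N 0) = 0) : ∃ g : E.X2 ⟶ N, f = E.i ≫ g := by
  have h2 : E.th2 (Ext.mk₀ f : Ext.{w} A N 0) = 0 := eq_zero_of_δ_eq_zero E.S1e (n := 2) h0 h
  have h3 : (cl E.S3e).comp (Ext.mk₀ f : Ext.{w} A N 0) (add_comm 1 0) = 0 :=
    eq_zero_of_δ_eq_zero E.S2e (n := 1) h1 h2
  obtain ⟨z, hz⟩ := exists_of_δ_eq_zero E.S3e h3
  obtain ⟨g, rfl⟩ := exists_mk₀ z
  refine ⟨g, ?_⟩
  rw [Ext.mk₀_comp_mk₀] at hz
  exact (mk₀_inj hz).symm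

/-! ### vanishing of `Ext^i(I, N)` read off from the complex `Hom(X., N)` -/

theorem z0 (h : ∀ f : E.X0 ⟶ N, E.d1 ≫ f = 0 → f = 0) : Z.{w} I N 0 := by
  rw [z_zero_iff]
  intro f
  have := E.epi_p
  rw [← cancel_epi E.p, comp_zero]
  apply h
  rw [← Category.assoc, E.w1, zero_comp]

theorem z1 (h0 : Z.{w} E.X0 N 1)
    (h : ∀ f : E.X1 ⟶ N, E.d2 ≫ f = 0 → ∃ g : E.X0 ⟶ N, f = E.d1 ≫ g) : Z.{w} I N 1 := by
  intro x
  obtain ⟨y, rfl⟩ := exists_δ E.S1e (n := 0) h0 x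
  obtain ⟨g, rfl⟩ := exists_mk₀ y
  have hg : E.d2 ≫ (E.q1 ≫ g) = 0 := by
    rw [← E.q2_ι, Category.assoc, ← Category.assoc (kernel.ι E.d1), E.ι_q1, zero_comp, comp_zero]
  obtain ⟨f, hf⟩ := h (E.q1 ≫ g) hg
  have he : Epi E.q1 := E.epi_q1
  have h2 : g = kernel.ι E.p ≫ f := by
    rw [← cancel_epi E.q1, hf, ← Category.assoc, E.q1_ι]
  rw [h2]
  exact cl_comp_mk₀ E.S1e f

theorem z1' (h1 : Z.{w} E.X1 N 1)
    (h : ∀ f : E.X2 ⟶ N, E.i ≫ f = 0 → ∃ g : E.X1 ⟶ N, f = E.d2 ≫ g) :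
    Z.{w} (kernel E.p) N 1 := by
  intro x
  obtain ⟨y, rfl⟩ := exists_δ E.S2e (n := 0) h1 x
  obtain ⟨g, rfl⟩ := exists_mk₀ y
  have hg : E.i ≫ (E.q2 ≫ g) = 0 := by
    rw [← Category.assoc, E.i_q2, zero_comp]
  obtain ⟨f, hf⟩ := h (E.q2 ≫ g) hg
  have he : Epi E.q2 := E.epi_q2
  have h2 : g = kernel.ι E.d1 ≫ f := by
    rw [← cancel_epi E.q2, hf, ← Category.assoc, E.q2_ι]
  rw [h2]
  exact cl_comp_mk₀ E.S2e f

theorem z2 (h0 : Z.{w} E.X0 N 2) (h1 : Z.{w} E.X1 N 1)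
    (h : ∀ f : E.X2 ⟶ N, E.i ≫ f = 0 → ∃ g : E.X1 ⟶ N, f = E.d2 ≫ g) : Z.{w} I N 2 :=
  Z.of_ses E.S1e (n := 1) (E.z1' h1 h) h0

theorem z4 {n : ℕ} (h0 : Z.{w} E.X0 N (n + 4)) (h1 : Z.{w} E.X1 N (n + 3))
    (h2 : Z.{w} E.X2 N (n + 2)) (hA : Z.{w} A N (n + 1)) : Z.{w} I N (n + 4) := by
  intro x
  obtain ⟨y, rfl⟩ := E.th3_surj (n := n + 1) h0 h1 h2 x
  rw [hA y, th3_zero]

end Ex4

/-- a morphism of exact sequences, with prescribed components at both ends -/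
structure Hom4 {A I A' I' : C} (E : Ex4 A I) (E' : Ex4 A' I') (a : A ⟶ A') (b : I ⟶ I') where
  x2 : E.X2 ⟶ E'.X2
  x1 : E.X1 ⟶ E'.X1
  x0 : E.X0 ⟶ E'.X0
  ci : E.i ≫ x2 = a ≫ E'.i
  c2 : E.d2 ≫ x1 = x2 ≫ E'.d2
  c1 : E.d1 ≫ x0 = x1 ≫ E'.d1
  cp : E.p ≫ b = x0 ≫ E'.p

namespace Hom4

variable {A I A' I' : C} {E : Ex4 A I} {E' : Ex4 A' I'} {a : A ⟶ A'} {b : I ⟶ I'}
  (φ : Hom4 E E' a b)

/-- induced map on `ker p` -/
noncomputable def k1 : kernel E.p ⟶ kernel E'.p := kernel.map E.p E'.p φ.x0 b φ.cp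

/-- induced map on `ker d1` -/
noncomputable def k2 : kernel E.d1 ⟶ kernel E'.d1 := kernel.map E.d1 E'.d1 φ.x1 φ.x0 φ.c1

theorem k1_ι : φ.k1 ≫ kernel.ι E'.p = kernel.ι E.p ≫ φ.x0 := kernel.lift_ι _ _ _

theorem k2_ι : φ.k2 ≫ kernel.ι E'.d1 = kernel.ι E.d1 ≫ φ.x1 := kernel.lift_ι _ _ _

theorem q1_k1 : E.q1 ≫ φ.k1 = φ.x1 ≫ E'.q1 := by
  rw [← cancel_mono (kernel.ι E'.p), Category.assoc, φ.k1_ι, ← Category.assoc, E.q1_ι,
    Category.assoc, E'.q1_ι, φ.c1]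

theorem q2_k2 : E.q2 ≫ φ.k2 = φ.x2 ≫ E'.q2 := by
  rw [← cancel_mono (kernel.ι E'.d1), Category.assoc, φ.k2_ι, ← Category.assoc, E.q2_ι,
    Category.assoc, E'.q2_ι, φ.c2]

variable [HasExt.{w} C] {N : C}

include φ in
theorem th3_nat {n : ℕ} (y : Ext.{w} A' N n) :
    (Ext.mk₀ b).comp (E'.th3 y) (zero_add (n + 3)) =
      E.th3 ((Ext.mk₀ a).comp y (zero_add n)) := by
  have h3 := cl_nat (N := N) E.S3e E'.S3e a φ.x2 φ.k2 φ.ci.symm φ.q2_k2.symm (add_comm 1 n) y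
  have h2 := cl_nat (N := N) E.S2e E'.S2e φ.k2 φ.x1 φ.k1 φ.k2_ι φ.q1_k1.symm
    (add_comm 1 (n + 1)) ((cl E'.S3e).comp y (add_comm 1 n))
  have h1 := cl_nat (N := N) E.S1e E'.S1e φ.k1 φ.x0 b φ.k1_ι φ.cp.symm
    (add_comm 1 (n + 2)) (E'.th2 y)
  rw [h3] at h2
  unfold Ex4.th3
  rw [h1]
  unfold Ex4.th2
  rw [h2]

include φ in
theorem th3_mk₀ (f : A' ⟶ N) :
    (Ext.mk₀ b).comp (E'.th3 (Ext.mk₀ f : Ext.{w} A' N 0)) (zero_add 3) =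
      E.th3 (Ext.mk₀ (a ≫ f) : Ext.{w} A N 0) := by
  rw [← Ext.mk₀_comp_mk₀]
  exact φ.th3_nat (Ext.mk₀ f)

end Hom4

end Vale.Agent.P195.F
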