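import Vale.Agent.Lib.P195.Formal.Ex4

/-!
# P195: the tower `0 → Y (n+1) → I n → Y n → 0` and the final periodicity argument
-/

namespace Vale.Agent.P195.F

open CategoryTheory CategoryTheory.Abelian CategoryTheory.Limits

universe w v u

variable {C : Type u} [Category.{v} C] [Abelian C]

/-! ## Lemma A -/

section A

variable [HasExt.{w} C] {N : C} (Y I : ℕ → C) (ι : ∀ n, Y (n + 1) ⟶ I n) (π : ∀ n, I n ⟶ Y n)
  (wz : ∀ n, ι n ≫ π n = 0) (hS : ∀ n, (ShortComplex.mk (ι n) (π n) (wz n)).ShortExact)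

include hS

theorem tower_low (h0 : ∀ n, Z.{w} (I n) N 0) (h1 : ∀ n, Z.{w} (I n) N 1)
    (h2 : ∀ n, Z.{w} (I n) N 2) :
    (∀ n, Z.{w} (Y n) N 0) ∧ (∀ n, Z.{w} (Y n) N 1) ∧ (∀ n, Z.{w} (Y n) N 2) := by
  have a0 : ∀ n, Z.{w} (Y n) N 0 := by
    intro n
    rw [z_zero_iff]
    intro f
    have := (hS n).epi_g
    have he : Epi (π n) := this
    rw [← cancel_epi (π n), comp_zero]
    exact (z_zero_iff.1 (h0 n)) _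
  have a1 : ∀ n, Z.{w} (Y n) N 1 := fun n => Z.of_ses (hS n) (n := 0) (a0 (n + 1)) (h1 n)
  exact ⟨a0, a1, fun n => Z.of_ses (hS n) (n := 1) (a1 (n + 1)) (h2 n)⟩

theorem tower_inj (hY2 : ∀ n, Z.{w} (Y n) N 2) (n : ℕ) {x : Ext.{w} (Y n) N 3}
    (h : (Ext.mk₀ (π n)).comp x (zero_add 3) = 0) : x = 0 :=
  inj_of_ses (hS n) (n := 2) (hY2 (n + 1)) h

/-- exactness of `J_0 → J_1 → J_2 → …` at `J_{n+1}`, `J_n = Ext^3(I_n, N)` -/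
def JExact (I Y : ℕ → C) (ι : ∀ n, Y (n + 1) ⟶ I n) (π : ∀ n, I n ⟶ Y n) (N : C) : Prop :=
  ∀ n (x : Ext.{w} (I (n + 1)) N 3),
    (Ext.mk₀ (π (n + 2) ≫ ι (n + 1))).comp x (zero_add 3) = 0 →
    ∃ y : Ext.{w} (I n) N 3, (Ext.mk₀ (π (n + 1) ≫ ι n)).comp y (zero_add 3) = x

omit hS in
theorem mk₀_comp_comp {X1 X2 X3 N : C} (f : X1 ⟶ X2) (g : X2 ⟶ X3) {n : ℕ}
    (x : Ext.{w} X3 N n) :
    (Ext.mk₀ (f ≫ g)).comp x (zero_add n) =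
      (Ext.mk₀ f).comp ((Ext.mk₀ g).comp x (zero_add n)) (zero_add n) :=
  (Ext.mk₀_comp_mk₀_assoc f g x).symm

theorem tower_surj (hY2 : ∀ n, Z.{w} (Y n) N 2) (hJ : JExact.{w} I Y ι π N) (n : ℕ)
    (e : Ext.{w} (Y (n + 1)) N 3) :
    ∃ y : Ext.{w} (I n) N 3, (Ext.mk₀ (ι n)).comp y (zero_add 3) = e := by
  obtain ⟨y, hy⟩ := hJ n ((Ext.mk₀ (π (n + 1))).comp e (zero_add 3)) (by
    rw [mk₀_comp_comp, ← mk₀_comp_comp (ι (n + 1)), wz (n + 1), Ext.mk₀_zero, Ext.zero_comp,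
      Ext.comp_zero])
  refine ⟨y, ?_⟩
  rw [← sub_eq_zero]
  apply tower_inj Y I ι π wz hS hY2 (n + 1)
  rw [sub_eq_add_neg, Ext.comp_add, Ext.comp_neg, ← mk₀_comp_comp, hy, add_neg_cancel]

theorem tower_high (hY2 : ∀ n, Z.{w} (Y n) N 2) (hJ : JExact.{w} I Y ι π N)
    (h4 : ∀ n i, Z.{w} (I n) N (i + 4)) : ∀ i n, Z.{w} (Y n) N (i + 4) := by
  intro i
  induction i with
  | zero =>
    intro n x
    obtain ⟨y, hy⟩ := exists_δ (hS n) (n := 3) (h4 n 0) x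
    obtain ⟨z, hz⟩ := tower_surj Y I ι π wz hS hY2 hJ n y
    rw [← hy, ← hz]
    exact cl_comp_f (hS n) z
  | succ i ih =>
    intro n
    exact Z.of_ses (hS n) (n := i + 4) (ih (n + 1)) (h4 n (i + 1))

/-- the elements of `Ext^3(I_0, N)` killed in `Ext^3(I_1, N)` come from `Ext^3(Y_0, N)` -/
theorem tower_lift (hY2 : ∀ n, Z.{w} (Y n) N 2) {x : Ext.{w} (I 0) N 3}
    (h : (Ext.mk₀ (π 1 ≫ ι 0)).comp x (zero_add 3) = 0) :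
    ∃ y : Ext.{w} (Y 0) N 3, (Ext.mk₀ (π 0)).comp y (zero_add 3) = x := by
  apply exists_of_restrict_eq_zero (hS 0)
  apply tower_inj Y I ι π wz hS hY2 1
  rw [← mk₀_comp_comp]
  exact h

end A

/-! ## Lemma B -/

section B

variable [HasExt.{w} C] {N M Y0 : C} (E : Ex4 M Y0)

/-- Periodicity: `0 → M → P1 → P2 → M → Y0 → 0` exact, `P1`, `P2` projective. -/
theorem lemB (a : E.X0 ≅ M) [Projective E.X2] [Projective E.X1]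
    (hz : ∀ i, i ≠ 3 → Z.{w} Y0 N i)
    (hex : ∀ f : E.X2 ⟶ N, E.i ≫ f = 0 → ∃ g : E.X1 ⟶ N, f = E.d2 ≫ g)
    (hsurj : ∀ y : Ext.{w} Y0 N 3, ∃ f : M ⟶ N, E.th3 (Ext.mk₀ f) = y)
    (hinj : ∀ f : M ⟶ N, E.th3 (Ext.mk₀ f : Ext.{w} M N 0) = 0 → ∃ g : E.X2 ⟶ N, f = E.i ≫ g) :
    ∀ i, Z.{w} M N (i + 1) := by
  have key : ∀ i, Z.{w} E.X0 N i → Z.{w} M N i := by
    intro i h x
    have h1 := h ((Ext.mk₀ a.hom).comp x (zero_add i))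
    have h2 : (Ext.mk₀ a.inv).comp ((Ext.mk₀ a.hom).comp x (zero_add i)) (zero_add i) = x := by
      rw [← mk₀_comp_comp, a.inv_hom_id, Ext.mk₀_id_comp]
    rw [← h2, h1, Ext.comp_zero]
  have c1 : Z.{w} E.X0 N 1 := by
    intro x
    have h1 : Z.{w} (kernel E.p) N 1 := E.z1' (Z.of_projective 0) hex
    obtain ⟨y, rfl⟩ := exists_of_restrict_eq_zero E.S1e (x := x) (h1 _)
    rw [hz 1 (by omega) y, Ext.comp_zero]
  have c2 : Z.{w} E.X0 N 2 := by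
    intro x
    obtain ⟨y, hy⟩ := E.th2_surj (n := 0) (Z.of_projective 1) (Z.of_projective 0)
      ((Ext.mk₀ (kernel.ι E.p)).comp x (zero_add 2))
    obtain ⟨f, rfl⟩ := exists_mk₀ y
    have h1 : E.th3 (Ext.mk₀ f : Ext.{w} M N 0) = 0 := by
      unfold Ex4.th3
      rw [hy]
      exact cl_comp_f E.S1e x
    obtain ⟨g, rfl⟩ := hinj f h1
    rw [E.th2_mk₀_i] at hy
    obtain ⟨z, rfl⟩ := exists_of_restrict_eq_zero E.S1e hy.symm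
    rw [hz 2 (by omega) z, Ext.comp_zero]
  have step : ∀ i, Z.{w} E.X0 N (i + 1) → ∀ x : Ext.{w} E.X0 N (i + 3),
      ∃ z : Ext.{w} Y0 N (i + 3), (Ext.mk₀ E.p).comp z (zero_add (i + 3)) = x := by
    intro i hi x
    apply exists_of_restrict_eq_zero E.S1e
    obtain ⟨y, hy⟩ := E.th2_surj (n := i + 1) (Z.of_projective (i + 2)) (Z.of_projective (i + 1))
      ((Ext.mk₀ (kernel.ι E.p)).comp x (zero_add (i + 3)))
    rw [← hy, key _ hi y, E.th2_zero]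
  have c3 : Z.{w} E.X0 N 3 := by
    intro x
    obtain ⟨z, rfl⟩ := step 0 c1 x
    obtain ⟨f, rfl⟩ := hsurj z
    exact g_comp_cl E.S1e _
  have c4 : ∀ i, Z.{w} E.X0 N (i + 2) → Z.{w} E.X0 N (i + 4) := by
    intro i hi x
    obtain ⟨z, rfl⟩ := step (i + 1) hi x
    rw [hz (i + 1 + 3) (by omega) z, Ext.comp_zero]
  have all : ∀ i, Z.{w} E.X0 N (i + 1) ∧ Z.{w} E.X0 N (i + 2) ∧ Z.{w} E.X0 N (i + 3) := by
    intro i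
    induction i with
    | zero => exact ⟨c1, c2, c3⟩
    | succ i ih => exact ⟨ih.2.1, ih.2.2, c4 i ih.2.1⟩
  intro i
  exact key _ (all i).1

end B

/-! ## the data -/

/-- the tower of short exact sequences together with resolutions of the `I n` and chain maps -/
structure Tower (C : Type u) [Category.{v} C] [Abelian C] where
  Y : ℕ → C
  I : ℕ → C
  ι : ∀ n, Y (n + 1) ⟶ I n
  π : ∀ n, I n ⟶ Y n
  wz : ∀ n, ι n ≫ π n = 0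
  ses : ∀ n, (ShortComplex.mk (ι n) (π n) (wz n)).ShortExact
  Q3 : ℕ → C
  Q : ∀ n, Ex4 (Q3 n) (I n)
  proj3 : ∀ n, Projective (Q3 n)
  proj2 : ∀ n, Projective (Q n).X2
  proj1 : ∀ n, Projective (Q n).X1
  proj0 : ∀ n, Projective (Q n).X0
  φ3 : ∀ n, Q3 (n + 1) ⟶ Q3 n
  φ : ∀ n, Hom4 (Q (n + 1)) (Q n) (φ3 n) (π (n + 1) ≫ ι n)

/-- the conditions on `N`, in terms of `Hom` only -/
structure Tower.Good (T : Tower C) (N : C) : Prop where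
  h0 : ∀ n, ∀ f : (T.Q n).X0 ⟶ N, (T.Q n).d1 ≫ f = 0 → f = 0
  h1 : ∀ n, ∀ f : (T.Q n).X1 ⟶ N, (T.Q n).d2 ≫ f = 0 → ∃ g : (T.Q n).X0 ⟶ N, f = (T.Q n).d1 ≫ g
  h2 : ∀ n, ∀ f : (T.Q n).X2 ⟶ N, (T.Q n).i ≫ f = 0 → ∃ g : (T.Q n).X1 ⟶ N, f = (T.Q n).d2 ≫ g
  hJ : ∀ n (f : T.Q3 (n + 1) ⟶ N) (g : (T.Q (n + 2)).X2 ⟶ N),
    T.φ3 (n + 1) ≫ f = (T.Q (n + 2)).i ≫ g →
      ∃ (h : T.Q3 n ⟶ N) (g' : (T.Q (n + 1)).X2 ⟶ N),
        f = T.φ3 n ≫ h + (T.Q (n + 1)).i ≫ g'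

namespace Tower

variable (T : Tower C) [HasExt.{w} C] {N : C}

theorem I0 (h : T.Good N) (n : ℕ) : Z.{w} (T.I n) N 0 := (T.Q n).z0 (h.h0 n)

theorem I1 (h : T.Good N) (n : ℕ) : Z.{w} (T.I n) N 1 :=
  haveI := T.proj0 n
  (T.Q n).z1 (Z.of_projective 0) (h.h1 n)

theorem I2 (h : T.Good N) (n : ℕ) : Z.{w} (T.I n) N 2 :=
  haveI := T.proj0 n
  haveI := T.proj1 n
  (T.Q n).z2 (Z.of_projective 1) (Z.of_projective 0) (h.h2 n)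

theorem I4 (n i : ℕ) : Z.{w} (T.I n) N (i + 4) :=
  haveI := T.proj0 n
  haveI := T.proj1 n
  haveI := T.proj2 n
  haveI := T.proj3 n
  (T.Q n).z4 (Z.of_projective _) (Z.of_projective _) (Z.of_projective _) (Z.of_projective _)

theorem I3_surj (n : ℕ) (x : Ext.{w} (T.I n) N 3) :
    ∃ f : T.Q3 n ⟶ N, (T.Q n).th3 (Ext.mk₀ f) = x := by
  have := T.proj0 n
  have := T.proj1 n
  have := T.proj2 n
  obtain ⟨y, hy⟩ := (T.Q n).th3_surj (n := 0) (Z.of_projective 2) (Z.of_projective 1)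
    (Z.of_projective 0) x
  obtain ⟨f, rfl⟩ := exists_mk₀ y
  exact ⟨f, hy⟩

theorem I3_zero (n : ℕ) {f : T.Q3 n ⟶ N} (h : (T.Q n).th3 (Ext.mk₀ f : Ext.{w} _ N 0) = 0) :
    ∃ g : (T.Q n).X2 ⟶ N, f = (T.Q n).i ≫ g := by
  have := T.proj0 n
  have := T.proj1 n
  exact (T.Q n).of_th3_eq_zero (Z.of_projective 1) (Z.of_projective 0) h

theorem jexact (h : T.Good N) : JExact.{w} T.I T.Y T.ι T.π N := by
  intro n x hx
  obtain ⟨f, rfl⟩ := T.I3_surj (n + 1) x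
  rw [(T.φ (n + 1)).th3_mk₀ f] at hx
  obtain ⟨g, hg⟩ := T.I3_zero (n + 2) hx
  obtain ⟨k, g', hk⟩ := h.hJ n f g hg
  refine ⟨(T.Q n).th3 (Ext.mk₀ k), ?_⟩
  rw [(T.φ n).th3_mk₀ k, hk, Ext.mk₀_add, Ex4.th3_add, (T.Q (n + 1)).th3_mk₀_i, add_zero]

theorem Y2 (h : T.Good N) (n : ℕ) : Z.{w} (T.Y n) N 2 :=
  (tower_low T.Y T.I T.ι T.π T.wz T.ses (T.I0 h) (T.I1 h) (T.I2 h)).2.2 n

/-- Lemma A: `Ext^i(Y_0, N) = 0` for `i ≠ 3`. -/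
theorem ext_zero (h : T.Good N) (n i : ℕ) (hi : i ≠ 3) : Z.{w} (T.Y n) N i := by
  obtain ⟨a0, a1, a2⟩ := tower_low T.Y T.I T.ι T.π T.wz T.ses (T.I0 h) (T.I1 h) (T.I2 h)
  rcases Nat.lt_or_ge i 4 with h4 | h4
  · interval_cases i
    · exact a0 n
    · exact a1 n
    · exact a2 n
    · exact absurd rfl hi
  · obtain ⟨j, rfl⟩ := Nat.exists_eq_add_of_le' h4
    exact tower_high T.Y T.I T.ι T.π T.wz T.ses a2 (T.jexact h) (fun n i => T.I4 n i) j n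

theorem ext3_inj (h : T.Good N) (n : ℕ) {x : Ext.{w} (T.Y n) N 3}
    (hx : (Ext.mk₀ (T.π n)).comp x (zero_add 3) = 0) : x = 0 :=
  tower_inj T.Y T.I T.ι T.π T.wz T.ses (T.Y2 h) n hx

/-- `Ext^3(Y_0, N) = 0` if `J_0 → J_1` is injective -/
theorem ext3_zero (h : T.Good N)
    (h4 : ∀ (f : T.Q3 0 ⟶ N) (g : (T.Q 1).X2 ⟶ N), T.φ3 0 ≫ f = (T.Q 1).i ≫ g →
      ∃ g' : (T.Q 0).X2 ⟶ N, f = (T.Q 0).i ≫ g') : Z.{w} (T.Y 0) N 3 := by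
  intro x
  apply T.ext3_inj h 0
  obtain ⟨f, hf⟩ := T.I3_surj 0 ((Ext.mk₀ (T.π 0)).comp x (zero_add 3))
  have h1 : (Ext.mk₀ (T.π 1 ≫ T.ι 0)).comp ((T.Q 0).th3 (Ext.mk₀ f : Ext.{w} _ N 0))
      (zero_add 3) = 0 := by
    rw [hf, mk₀_comp_comp, ← mk₀_comp_comp (T.ι 0), T.wz 0, Ext.mk₀_zero, Ext.zero_comp,
      Ext.comp_zero]
  rw [(T.φ 0).th3_mk₀ f] at h1
  obtain ⟨g, hg⟩ := T.I3_zero 1 h1
  obtain ⟨g', rfl⟩ := h4 f g hg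
  rw [← hf, (T.Q 0).th3_mk₀_i]

/-- **Main formal theorem.** `E : 0 → M → P1 → P2 → M → Y_0 → 0` exact, `ψ` a morphism from the
resolution of `I_0` to `E` over `π_0`. All hypotheses are about `Hom` only. -/
theorem main {M : C} (h : T.Good N) (E : Ex4 M (T.Y 0)) (a : E.X0 ≅ M) [Projective E.X2]
    [Projective E.X1] (ψ3 : T.Q3 0 ⟶ M) (ψ : Hom4 (T.Q 0) E ψ3 (T.π 0))
    (hex : ∀ f : E.X2 ⟶ N, E.i ≫ f = 0 → ∃ g : E.X1 ⟶ N, f = E.d2 ≫ g)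
    (h4 : ∀ (f : T.Q3 0 ⟶ N) (g : (T.Q 1).X2 ⟶ N), T.φ3 0 ≫ f = (T.Q 1).i ≫ g →
      ∃ (k : M ⟶ N) (g' : (T.Q 0).X2 ⟶ N), f = ψ3 ≫ k + (T.Q 0).i ≫ g')
    (h5 : ∀ (k : M ⟶ N) (g : (T.Q 0).X2 ⟶ N), ψ3 ≫ k = (T.Q 0).i ≫ g →
      ∃ g' : E.X2 ⟶ N, k = E.i ≫ g') :
    ∀ i, ∀ x : Ext.{w} M N (i + 1), x = 0 := by
  refine lemB E a (fun i hi => T.ext_zero h 0 i hi) hex ?_ ?_
  · intro x
    obtain ⟨f, hf⟩ := T.I3_surj 0 ((Ext.mk₀ (T.π 0)).comp x (zero_add 3))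
    have h1 : (Ext.mk₀ (T.π 1 ≫ T.ι 0)).comp ((T.Q 0).th3 (Ext.mk₀ f : Ext.{w} _ N 0))
        (zero_add 3) = 0 := by
      rw [hf, mk₀_comp_comp, ← mk₀_comp_comp (T.ι 0), T.wz 0, Ext.mk₀_zero, Ext.zero_comp,
        Ext.comp_zero]
    rw [(T.φ 0).th3_mk₀ f] at h1
    obtain ⟨g, hg⟩ := T.I3_zero 1 h1
    obtain ⟨k, g', rfl⟩ := h4 f g hg
    refine ⟨k, ?_⟩
    rw [← sub_eq_zero]
    apply T.ext3_inj h 0
    rw [sub_eq_add_neg, Ext.comp_add, Ext.comp_neg, ψ.th3_mk₀ k, ← hf, Ext.mk₀_add, Ex4.th3_add,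
      (T.Q 0).th3_mk₀_i, add_zero, add_neg_cancel]
  · intro k hk
    have h1 := ψ.th3_mk₀ (N := N) k
    rw [hk, Ext.comp_zero] at h1
    obtain ⟨g, hg⟩ := T.I3_zero 0 h1.symm
    exact h5 k g hg

end Tower

end Vale.Agent.P195.F
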